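import Vale.Agent.P346.Layer

/-! Leading-term certificates for iterated matrix multiplication. -/

namespace Vale.Agent.P346

open Finset MvPolynomial Matrix

variable {K : Type*} [Field K] {n d : ℕ}

/-- States of `d` layers. -/
abbrev Sd (d n : ℕ) : Type := St (Fin d × Fin n × Fin n)

/-- Splitting off the first layer. -/
def sp : Sd (d + 1) n ≃ Ly n × Sd d n where
  toFun a := (fun v => a (0, v), fun v => a (v.1.succ, v.2))
  invFun x v := Fin.cases (motive := fun _ => Fin 5) (x.1 v.2) (fun i => x.2 (i, v.2)) v.1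
  left_inv a := by ext ⟨i, v⟩; induction i using Fin.cases <;> simp
  right_inv x := by ext <;> simp

theorem Mat_split (e : Fin n × Fin n) (f : MvPolynomial (Fin d × Fin n × Fin n) K)
    (a' a : Sd (d + 1) n) : Mat (X (0, e) * rename (Prod.map Fin.succ id) f) a' a =
      Mat (X e) (sp a').1 (sp a).1 * Mat f (sp a').2 (sp a).2 := by
  induction f using MvPolynomial.induction_on' with
  | add p q hp hq => simp only [map_add, mul_add, Mat_add, Matrix.add_apply, hp, hq]
  | monomial m c =>
    have h1 : Function.Injective (Prod.map Fin.succ id : Fin d × Fin n × Fin n → _) :=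
      (Fin.succ_injective d).prodMap Function.injective_id
    have h2 : ∀ i v, Finsupp.mapDomain (Prod.map Fin.succ id) m (Fin.succ i, v) = m (i, v) :=
      fun i v => Finsupp.mapDomain_apply h1 m (i, v)
    have h3 : ∀ v, Finsupp.mapDomain (Prod.map Fin.succ id) m (0, v) = 0 := fun v =>
      Finsupp.mapDomain_of_notMem_range _ _ (by simp)
    simp only [rename_monomial, X, monomial_mul, Mat_monomial, one_mul, ite_mul, zero_mul,
      ← ite_and]
    congr 1
    simp [Finsupp.ext_iff, Fin.forall_fin_succ, h2, h3, sp, Finsupp.single_apply,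
      (Fin.succ_ne_zero _).symm]

variable [NeZero n]

variable (K n) in
/-- The first column of the product of generic matrices. -/
noncomputable def F (d : ℕ) (k : Fin n) : MvPolynomial (Fin d × Fin n × Fin n) K :=
  (List.ofFn fun i : Fin d => Matrix.of fun j k : Fin n => X (i, j, k)).prod k 0

theorem F_succ (k : Fin n) :
    F K n (d + 1) k = ∑ j, X (0, k, j) * rename (Prod.map Fin.succ id) (F K n d j) := by
  rw [F, List.ofFn_succ, List.prod_cons, Matrix.mul_apply]
  refine sum_congr rfl fun j _ => ?_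
  have := map_list_prod (rename (R := K) (Prod.map Fin.succ id)).mapMatrix
    (List.ofFn fun i : Fin d => Matrix.of fun j k : Fin n => X (i, j, k))
  rw [F, ← Matrix.map_apply (f := rename (Prod.map Fin.succ id)), ← AlgHom.mapMatrix_apply, this,
    List.map_ofFn]
  refine congrArg (fun f : Fin d → Matrix _ _ _ => _ * (List.ofFn f).prod j 0)
    (_root_.funext fun i => ?_)
  ext j k : 2
  simp

variable (K) in
/-- The available rows. -/
noncomputable def Jset : (d : ℕ) → Sd d n → Finset (Fin n)
  | 0, _ => {0}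
  | d + 1, a => Js K (Jset d (sp a).2) (sp a).1

theorem Mat_sum {σ ι : Type} [Fintype σ] [DecidableEq σ] (s : Finset ι) (f : ι → MvPolynomial σ K)
    (a' a : St σ) : Mat (∑ i ∈ s, f i) a' a = ∑ i ∈ s, Mat (f i) a' a := by
  simp [Mat, sum_mul, coeff_sum]

theorem cert (d : ℕ) : ∃ (α : Sd d n → ℤ) (ω : Fin n → ℤ), ∀ a, ∀ j ∈ Jset K d a, ∃ g : Sd d n → K,
    Ld (fun x : Sd d n × Fin n => α x.1 + ω x.2) (fun x => (Mat (F K n d x.2) *ᵥ g) x.1) (a, j) := by
  induction d with
  | zero =>
    refine ⟨0, 0, fun a j hj => ⟨fun _ => 1, ?_, fun x h1 h2 => (h2 ?_).elim⟩⟩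
    · rw [mem_singleton.1 hj]
      simp [mulVec, dotProduct, F, Mat, Subsingleton.elim (toF _) 0]
    · rw [mem_singleton.1 hj] at h1
      have : x.2 ≠ 0 := fun h => h1 (Prod.ext (Subsingleton.elim _ _) h)
      simp [mulVec, dotProduct, F, Mat, this]
  | succ d ih =>
    obtain ⟨α, ω, ih⟩ := ih
    choose! g hg using ih
    obtain ⟨L, hL⟩ := (Set.finite_range fun x : (Ly n × Fin n) × Ly n × Fin n =>
      od x.1 - od x.2 + 1).bddAbove
    let β : Ly n → ℤ := ht fun v => ω v.2
    refine ⟨fun a => L * (α (sp a).2 + β (sp a).1) + (Fintype.equivFin (Ly n) (sp a).1).val,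
      fun k => -(Fintype.card (Ly n) * (k.val : ℤ)), fun a k hk => ?_⟩
    obtain ⟨⟨b, a⟩, rfl⟩ := sp.symm.surjective a
    simp only [Jset, Equiv.apply_symm_apply, Js, mem_filter, mem_univ, true_and] at hk
    obtain ⟨γ, hγ⟩ := hk
    have h1 : ∀ x y, Lm K (Jset K d a) x y ≠ 0 → β x.1 = β y.1 + ω y.2 := fun x y h => by
      simp [β, ht, (Lm_ne h).2, Finsupp.weight_single, add_comm]
    have h2 := mulVec_restrict h1 γ (β b)
    set γ' := fun y : Ly n × Fin n => if β y.1 + ω y.2 = β b then γ y else 0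
    let G := fun a' : Sd (d + 1) n => ∑ j ∈ Jset K d a, γ' ((sp a').1, j) * g a j (sp a').2
    have h3 : ∀ b' a' k', (Mat (F K n (d + 1) k') *ᵥ G) (sp.symm (b', a')) =
        ∑ j ∈ Jset K d a, ∑ j', ∑ c, Mat (X (k', j')) b' c * γ' (c, j) *
          (Mat (F K n d j') *ᵥ g a j) a' := fun b' a' k' => by
      simp only [mulVec, dotProduct, F_succ, Mat_sum, Mat_split, G, mul_sum, sum_mul]
      rw [← sp.symm.sum_comp, sum_comm]
      refine sum_congr rfl fun j _ => ?_
      rw [sum_comm]
      simp only [Equiv.apply_symm_apply, Fintype.sum_prod_type, mul_mul_mul_comm]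
    have h4 : ∀ b' a' k', α a + β b ≤ α a' + β b' →
        (Mat (F K n (d + 1) k') *ᵥ G) (sp.symm (b', a')) =
        if a' = a then (Lm K (Jset K d a) *ᵥ γ') (b', k') else 0 := fun b' a' k' h => by
      have h5 : ∀ j ∈ Jset K d a, ∀ j' c, (a', j') ≠ (a, j) → Mat (X (k', j')) b' c * γ' (c, j) *
          (Mat (F K n d j') *ᵥ g a j) a' = 0 := fun j hj j' c h6 => by
        by_contra h7
        have a1 := (hg a j hj).2 _ h6 (right_ne_zero_of_mul h7)
        have a2 := left_ne_zero_of_mul h7
        have a3 : β c + ω j = β b := by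
          by_contra h8
          exact right_ne_zero_of_mul a2 (if_neg h8)
        obtain ⟨m, a4, a5⟩ := Mat_ne (left_ne_zero_of_mul a2)
        rw [support_X, mem_singleton] at a4
        have : β b' = ω j' + β c := by simp [β, ht, a5, a4, Finsupp.weight_single]
        simp only at a1
        omega
      rw [h3]
      split_ifs with h6
      · subst h6
        rw [sum_congr rfl fun j hj => sum_eq_single j (fun j' _ h => sum_eq_zero fun c _ =>
          h5 j hj j' c (by simpa using h)) (by simp)]
        conv_rhs => simp only [mulVec, dotProduct, Fintype.sum_prod_type_right, Lm, ite_mul,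
          zero_mul, sum_ite_irrel, sum_const_zero, sum_ite_mem, univ_inter]
        refine sum_congr rfl fun j hj => ?_
        have := (hg a' j hj).1
        simp only at this
        simp only [this, mul_one]
      · exact sum_eq_zero fun j hj => sum_eq_zero fun j' _ => sum_eq_zero fun c _ =>
          h5 j hj j' c (by simp [h6])
    refine ⟨G, ?_, fun ⟨a', k'⟩ a1 a2 => ?_⟩
    · simp only [h4 b a k le_rfl, h2, if_true, hγ.1]
    · obtain ⟨⟨b', a'⟩, rfl⟩ := sp.symm.surjective a'
      simp only [Equiv.apply_symm_apply]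
      rcases le_or_gt (α a + β b) (α a' + β b') with h | h
      · simp only [h4 _ _ _ h, h2, ne_eq, ite_eq_right_iff, not_forall] at a2
        obtain ⟨rfl, a3, a4⟩ := a2
        have := hγ.2 (b', k') (by rintro ⟨⟩; exact a1 rfl) a4
        simp only [od] at this
        rw [a3]
        linarith
      · have a3 : _ ≤ L := hL ⟨((b', k'), b, k), rfl⟩
        have a4 : _ ≤ L := hL ⟨((b, k), b, k), rfl⟩
        simp only [od] at a3 a4
        nlinarith

theorem F_hom (d : ℕ) (k : Fin n) : (F K n d k).IsHomogeneous d := by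
  induction d generalizing k with
  | zero =>
    simp only [F, List.ofFn_zero, List.prod_nil, one_apply]
    split_ifs
    exacts [isHomogeneous_one _ _, isHomogeneous_zero _ _ _]
  | succ d ih =>
    rw [F_succ]
    exact IsHomogeneous.sum _ _ _ fun j _ => by
      rw [mul_comm]; exact (ih j).rename_isHomogeneous.mul (isHomogeneous_X _ _)

variable (n) in
/-- Heights of the variables. -/
def wt (e : ℕ → ℤ) (d : ℕ) (v : Fin d × Fin n × Fin n) : ℤ := e v.1.rev

omit [NeZero n] in
theorem ht_sp (e : ℕ → ℤ) (a : Sd (d + 1) n) :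
    ht (wt n e (d + 1)) a = e d * lev (sp a).1 + ht (wt n e d) (sp a).2 := by
  simp only [ht, Finsupp.weight_apply]
  rw [Finsupp.sum_fintype _ _ (by simp), Finsupp.sum_fintype _ _ (by simp),
    Fintype.sum_prod_type, Fintype.sum_prod_type (α₁ := Fin d), Fin.sum_univ_succ]
  simp [wt, sp, lev, mul_sum, mul_comm, Fin.rev_succ]

theorem F_ht (e : ℕ → ℤ) (d : ℕ) (k : Fin n) (a' a : Sd d n) (h : Mat (F K n d k) a' a ≠ 0) :
    ht (wt n e d) a' = ht (wt n e d) a + ∑ i ∈ range d, e i := by
  induction d generalizing k with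
  | zero => simp [Subsingleton.elim a' a]
  | succ d ih =>
    rw [F_succ, Mat_sum] at h
    obtain ⟨j, -, h⟩ := exists_ne_zero_of_sum_ne_zero h
    rw [Mat_split] at h
    have := Lm_lev (K := K) (J := univ) ((sp a').1, k) ((sp a).1, j)
      (by simpa [Lm] using left_ne_zero_of_mul h)
    rw [ht_sp, ht_sp, ih _ _ _ (right_ne_zero_of_mul h), this, sum_range_succ]
    push_cast
    ring

theorem le_mu (e : ℕ → ℤ) (d : ℕ) {η : ℝ} (hη : 0 < η) :
    η ^ (-∑ i ∈ range d, e i) * ∑ a with 0 ∈ Jset K d a, η ^ ht (wt n e d) a ≤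
      mu (wt n e d) (∑ i ∈ range d, e i) η (F K n d 0) := by
  obtain ⟨α, ω, h⟩ := cert (K := K) (n := n) d
  set H := ∑ i ∈ range d, e i
  rw [mul_sum, ← sum_fiberwise_of_maps_to (g := fun a => ht (wt n e d) a - H)
    (t := univ.image (ht (wt n e d))) fun a ha => ?_]
  · refine sum_le_sum fun c _ => ?_
    rw [sum_congr rfl (g := fun _ => η ^ c) fun a ha => by
      rw [← zpow_add₀ hη.ne', ← (mem_filter.1 ha).2, neg_add_eq_sub], sum_const, nsmul_eq_mul,
      mul_comm]
    gcongr
    refine card_le_rank _ α _ fun a ha => ?_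
    simp only [mem_filter, mem_univ, true_and] at ha
    obtain ⟨g, hg⟩ := h a 0 ha.1
    have h1 : ∀ x, (Blk (wt n e d) H c (F K n d 0) *ᵥ g) x =
        if ht (wt n e d) x - H = c then (Mat (F K n d 0) *ᵥ g) x else 0 := fun x => by
      rw [← mulVec_restrict (ψ := ht (wt n e d)) (φ := fun x => ht (wt n e d) x - H)
        (N := Mat (F K n d 0)) fun x y h => by rw [F_ht e d 0 x y h]; ring]
      refine sum_congr rfl fun y _ => ?_
      by_cases h : Mat (F K n d 0) x y = 0
      · simp [Blk, h]
      · simp [Blk, F_ht e d 0 x y h, H]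
    refine ⟨g, by rw [h1, if_pos ha.2]; exact hg.1, fun x h2 h3 => ?_⟩
    rw [h1] at h3
    simpa using hg.2 (x, 0) (by simpa using h2) fun h => h3 (by simp [show (_ *ᵥ g) x = 0 from h])
  · obtain ⟨g, hg⟩ := h a 0 (mem_filter.1 ha).2
    obtain ⟨y, -, h1⟩ := exists_ne_zero_of_sum_ne_zero (hg.1.trans_ne one_ne_zero)
    exact mem_image.2 ⟨y, mem_univ _, by rw [F_ht e d 0 a y (left_ne_zero_of_mul h1)]; ring⟩

end Vale.Agent.P346
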