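import Vale.Agent.P346.Num

/-! The known upper bound. -/

namespace Vale.Agent.P346

open Finset MvPolynomial

variable {K : Type*} [Field K]

theorem prod_paths {ι R : Type*} [Fintype ι] [DecidableEq ι] [CommRing R] {k : ℕ}
    (N : Fin k → Matrix ι ι R) (x y : ι) : (List.ofFn N).prod x y =
      ∑ p : Fin (k + 1) → ι with p 0 = x ∧ p (Fin.last k) = y, ∏ i, N i (p i.castSucc) (p i.succ) := by
  induction k generalizing x with
  | zero =>
    rw [sum_filter, ← (Equiv.funUnique (Fin 1) ι).symm.sum_comp]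
    simp [Matrix.one_apply, ite_and, -sum_boole]
  | succ k ih =>
    rw [List.ofFn_succ, List.prod_cons, Matrix.mul_apply, sum_filter,
      ← (Fin.consEquiv fun _ => ι).sum_comp, Fintype.sum_prod_type]
    simp only [ih, sum_filter, mul_sum, ite_and, Fin.consEquiv_apply, Fin.cons_zero,
      sum_ite_irrel, sum_const_zero, sum_ite_eq', mem_univ, if_true, Fin.prod_univ_succ]
    rw [sum_comm]
    simp [← Fin.succ_last]

theorem prod_pad {R : Type*} [Monoid R] (M : ℕ → R) (n : ℕ) (h : ∀ i, n ≤ i → M i = 1) (m : ℕ)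
    (hm : n ≤ m) : (List.ofFn fun i : Fin m => M i).prod = (List.ofFn fun i : Fin n => M i).prod := by
  induction m, hm using Nat.le_induction with
  | base => rfl
  | succ m hm ih => simp [List.ofFn_succ_last, -List.ofFn_succ, ih, h m hm]

theorem sum_mm {α β : Type} [Fintype α] (φ : α → β) (f : β → ℕ) :
    ((univ.val.map φ).map f).sum = ∑ i, f (φ i) := by rw [Multiset.map_map]; rfl

theorem prod_mm {α β R : Type*} [CommMonoid R] [Fintype α] (φ : α → β) (f : β → R) :
    ((univ.val.map φ).map f).prod = ∏ i, f (φ i) := by rw [Multiset.map_map]; rfl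

variable (K) in
/-- The block circuit. -/
noncomputable def blk (n T : ℕ) [NeZero n] : Circuit (Fin n × Fin n × Fin n) K where
  L := Fin T × Fin T × Fin n × Fin n
  S₁ := Fin T × Fin T × Fin n × Fin n
  P₂ := Fin T × (Fin (T + 1) → Fin n)
  S₃ := Fin T × Fin n × Fin n
  P₄ := Fin (T + 1) → Fin n
  finL := inferInstance
  fin₁ := inferInstance
  fin₂ := inferInstance
  fin₃ := inferInstance
  fin₄ := inferInstance
  leaf g := if h : g.1 * T + g.2.1 < n then .inl (⟨_, h⟩, g.2.2) else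
    .inr (if g.2.2.1 = g.2.2.2 then 1 else 0)
  in₁ g := {g}
  co₁ _ _ := 1
  in₂ g := univ.val.map fun i => (g.1, i, g.2 i.castSucc, g.2 i.succ)
  in₃ g := (univ.filter fun p => p 0 = g.2.1 ∧ p (Fin.last T) = g.2.2).map
    ⟨fun p => (g.1, p), fun _ _ h => (Prod.ext_iff.1 h).2⟩
  co₃ _ _ := 1
  in₄ q := univ.val.map fun i => (i, q i.castSucc, q i.succ)
  in₅ := univ.filter fun p => p 0 = 0 ∧ p (Fin.last T) = 0
  co₅ _ := 1

variable {n T : ℕ} [NeZero n]

theorem blk_hom : (blk K n (T + 1)).Homog := by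
  have h1 : ∀ g, (blk K n (T + 1)).deg₂ g =
      ∑ i : Fin (T + 1), if g.1 * (T + 1) + i < n then 1 else 0 := fun g => by
    refine (sum_mm (fun i : Fin _ => (g.1, i, g.2 i.castSucc, g.2 i.succ)) (blk K n (T + 1)).deg₁).trans
      (sum_congr rfl fun i _ => sup_singleton.trans ?_)
    simp only [Circuit.deg₀, blk]
    split_ifs <;> rfl
  have h2 : ∀ g, ∀ i ∈ (blk K n (T + 1)).in₃ g, i.1 = g.1 := fun g i hi => by
    obtain ⟨p, -, rfl⟩ := mem_map.1 hi
    rfl
  have h3 : ∀ g, ∀ i ∈ (blk K n (T + 1)).in₃ g, ∀ j ∈ (blk K n (T + 1)).in₃ g,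
      (blk K n (T + 1)).deg₂ i = (blk K n (T + 1)).deg₂ j := fun g i hi j hj => by
    rw [h1, h1, h2 g i hi, h2 g j hj]
  have h4 : ∀ g, (blk K n (T + 1)).deg₃ g =
      ∑ i : Fin (T + 1), if g.1 * (T + 1) + i < n then 1 else 0 := fun g =>
    (eq_sup (h3 g) (i := (g.1, Fin.cons g.2.1 fun _ => g.2.2))
      (mem_map_of_mem _ (by simp [← Fin.succ_last]))).symm.trans (h1 _)
  refine ⟨fun g i hi j hj => by rw [mem_singleton.1 hi, mem_singleton.1 hj], h3,
    fun p _ q _ => (sum_mm (fun i : Fin _ => (i, p i.castSucc, p i.succ)) (blk K n (T + 1)).deg₃).trans (Eq.trans ?_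
      (sum_mm (fun i : Fin _ => (i, q i.castSucc, q i.succ)) (blk K n (T + 1)).deg₃).symm)⟩
  exact sum_congr rfl fun i _ => (h4 _).trans (h4 (i, q i.castSucc, q i.succ)).symm

theorem blk_out (h : n ≤ T * T) : (blk K n T).output = IMM K n n := by
  let M : ℕ → Matrix (Fin n) (Fin n) (MvPolynomial (Fin n × Fin n × Fin n) K) := fun i =>
    if h : i < n then .of fun j k => X (⟨i, h⟩, j, k) else 1
  have h1 : ∀ g, (blk K n T).val₁ g = M (g.1 * T + g.2.1) g.2.2.1 g.2.2.2 := fun g => by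
    refine (sum_singleton _ _).trans ((one_smul _ _).trans ?_)
    simp only [Circuit.val₀, blk, M]
    split_ifs with h1 h2
    · rfl
    · exact (map_one C).trans (if_pos h2).symm
    · exact (map_zero C).trans (if_neg h2).symm
  have h2 : ∀ g, (blk K n T).val₃ g =
      (List.ofFn fun i : Fin T => M (g.1 * T + i)).prod g.2.1 g.2.2 := fun g => by
    rw [prod_paths]
    refine (sum_map _ _ _).trans (sum_congr rfl fun p _ => (one_smul _ _).trans ?_)
    exact (prod_mm (fun i : Fin _ => (g.1, i, p i.castSucc, p i.succ)) (blk K n T).val₁).trans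
      (prod_congr rfl fun i _ => h1 _)
  have h3 := prod_pad M n (fun i hi => dif_neg hi.not_gt) _ h
  rw [List.ofFn_mul, List.prod_flatten, List.map_ofFn] at h3
  have h4 : IMM K n n = (List.ofFn fun i : Fin n => M i).prod 0 0 := by simp [IMM, M]
  rw [h4, ← h3, prod_paths]
  refine sum_congr rfl fun p _ => (one_smul _ _).trans ?_
  exact (prod_mm (fun i : Fin _ => (i, p i.castSucc, p i.succ)) (blk K n T).val₃).trans (prod_congr rfl fun i _ => h2 _)

theorem blk_size (h : 6 ≤ n) (h1 : T + 1 ≤ n) : (blk K n (T + 1)).size ≤ n ^ (T + 5) := by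
  simp only [Circuit.size, blk, Nat.card_eq_fintype_card, Fintype.card_prod, Fintype.card_fin,
    Fintype.card_fun]
  have a1 : ∀ k ≤ T + 4, n ^ k ≤ n ^ (T + 4) := fun k hk => Nat.pow_le_pow_right (by omega) hk
  have a2 := a1 0 (by omega)
  have a3 := a1 3 (by omega)
  have a4 := a1 4 (by omega)
  have a5 := a1 (T + 1 + 1) (by omega)
  have a6 := a1 (T + 3) (by omega)
  calc _ ≤ n * (n * (n * n)) + n * (n * (n * n)) + n * n ^ (T + 1 + 1) +
        n * (n * n) + n ^ (T + 1 + 1) + 1 := by gcongr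
    _ = n ^ 4 + n ^ 4 + n ^ (T + 3) + n ^ 3 + n ^ (T + 1 + 1) + n ^ 0 := by ring
    _ ≤ 6 * n ^ (T + 4) := by omega
    _ ≤ _ := by rw [pow_succ' n (T + 4)]; gcongr

end Vale.Agent.P346
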