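import Vale.Agent.P346.Cert

/-! The layer by layer lower bound. -/

namespace Vale.Agent.P346

open Finset

variable {K : Type*} [Field K] {n : ℕ}

theorem conc {θ u v : ℝ} (h0 : 0 ≤ θ) (h1 : θ ≤ 1) (hu : u ≤ 1) (hv : v ≤ 1) (h : θ * u ≤ v)
    (m : ℕ) : θ * (1 - (1 - u) ^ m) ≤ 1 - (1 - v) ^ m := by
  have a1 := (convexOn_pow m).2 (show 1 - u ∈ Set.Ici 0 from sub_nonneg.2 hu)
    (show (1 : ℝ) ∈ Set.Ici 0 from zero_le_one' ℝ) h0 (sub_nonneg.2 h1) (by ring)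
  have a2 : (1 - v) ^ m ≤ (θ * (1 - u) + (1 - θ) * 1) ^ m :=
    pow_le_pow_left₀ (sub_nonneg.2 hv) (by linarith) m
  simp only [smul_eq_mul, one_pow] at a1
  linarith

variable [NeZero n]

theorem layer_z (J : Finset (Fin n)) {r u' : ℝ} (hr : 0 < r) (hr1 : r ≤ 1) (h0 : 0 ≤ u')
    (h1 : u' ≤ 1) : (1 - r ^ 4) * (1 - (1 - r * u') ^ J.card) * ∑ b : Ly n, r ^ lev b ≤
      Psi K J r (1 - u') := by
  have a0 : 1 ≤ ∑ a : Fin 5, r ^ a.val := by simp [Fin.sum_univ_succ]; positivity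
  have a1 := pow_le_one₀ (n := 4) hr.le hr1
  refine le_trans ?_ (Psi_z J (p := 1 - 1 / ∑ a : Fin 5, r ^ a.val) hr (by linarith) (by linarith)
    (by field_simp))
  have a2 : 0 ≤ 1 / ∑ a : Fin 5, r ^ a.val := by positivity
  have a3 : (1 - r ^ 4) * r ≤ 1 - 1 / ∑ a : Fin 5, r ^ a.val := by
    rw [le_sub_comm, div_le_iff₀ (by positivity)]
    rw [show ∑ a : Fin 5, r ^ a.val = 1 + r + r ^ 2 + r ^ 3 + r ^ 4 by
      simp [Fin.sum_univ_succ]; ring]
    have : 0 ≤ r ^ 5 * (r + r ^ 2 + r ^ 3 + r ^ 4) := by positivity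
    linarith
  gcongr
  exact conc (by linarith) (by linarith [pow_pos hr 4]) (by nlinarith) (by nlinarith)
    (by nlinarith) _

theorem layer_y (J : Finset (Fin n)) {r u' δ : ℝ} (hr : 1 ≤ r) (h0 : 0 < u') (h1 : r * u' + δ ≤ 1)
    (hδ : 0 ≤ δ) (h2 : (1 - u') ^ n ≤ δ * (r * u')) :
    (1 - r⁻¹ ^ 4) * (1 - r * u' - δ) * (1 - (1 - r * u') ^ J.card) * ∑ b : Ly n, r ^ lev b ≤
      Psi K J r (1 - u') := by
  have a0 : u' ≤ r * u' := by nlinarith
  rcases J.card.eq_zero_or_pos with h | h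
  · rw [h, pow_zero, sub_self, mul_zero, zero_mul]
    exact sum_nonneg fun b _ => mul_nonneg (by positivity) (sum_nonneg fun k _ =>
      mul_nonneg (by linarith) (pow_nonneg (by linarith) _))
  obtain ⟨D, hD⟩ : ∃ D, D = ∑ a : Fin 5, r ^ a.val := ⟨_, rfl⟩
  have a1 : D = 1 + r + r ^ 2 + r ^ 3 + r ^ 4 := by simp [hD, Fin.sum_univ_succ]; ring
  have a2 : 0 < D := by rw [a1]; positivity
  obtain ⟨p, hp⟩ : ∃ p, p * D = D - r ^ 4 := ⟨1 - r ^ 4 / D, by field_simp⟩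
  have a3 : r * p = 1 - D⁻¹ := by field_simp; linear_combination r * hp + (r - 1) * a1
  have a4 : D⁻¹ ≤ r⁻¹ ^ 4 := by
    rw [inv_pow]
    exact inv_anti₀ (by positivity) (by rw [a1]; exact le_add_of_nonneg_left (by positivity))
  have a5 : 0 < p := (pos_iff_pos_of_mul_pos (b := D) (by rw [hp, a1]; ring_nf; positivity)).2 a2
  have a6 : p ≤ 1 := by nlinarith [inv_pos.2 a2]
  have a7 : 0 < p + u' * (1 - p) := by nlinarith
  have a8 : u' / (p + u' * (1 - p)) ≤ 1 := by rw [div_le_one a7]; nlinarith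
  refine le_trans ?_ (Psi_y J (p := p) (s' := 1 - u' / (p + u' * (1 - p))) (by linarith)
    (by linarith) (by linarith) (hD ▸ hp) a5.le (by linarith) (by field_simp; ring))
  have a9 := conc (θ := 1 - r * u') (u := r * u') (by linarith) (by linarith) (by linarith) a8 (by
    rw [le_div_iff₀ a7]
    have : r * (p + u' * (1 - p)) ≤ 1 + r * u' := by nlinarith [inv_pos.2 a2]
    nlinarith [mul_le_mul_of_nonneg_left this (show 0 ≤ (1 - r * u') * u' by nlinarith),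
      mul_nonneg h0.le (sq_nonneg (r * u'))]) J.card
  have b1 : (1 - r * u') ^ J.card ≤ 1 - r * u' := pow_le_of_le_one (by linarith) (by linarith) h.ne'
  rw [mul_assoc (1 - _)]
  gcongr
  · exact mul_nonneg (by linarith) (by linarith)
  · linarith
  · nlinarith

/-- The greedy height sequence. -/
def Hs (t : ℕ) : ℕ → ℤ
  | 0 => 0
  | d + 1 => Hs t d + if Hs t d ≤ 0 then (4 * t + 1 : ℤ) else 1 - 4 * t

/-- The heights of the layers. -/
def es (t d : ℕ) : ℤ := if Hs t d ≤ 0 then 4 * t + 1 else 1 - 4 * t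

theorem sum_es (t d : ℕ) : ∑ i ∈ range d, es t i = Hs t d := by
  induction d with
  | zero => rfl
  | succ d ih => rw [sum_range_succ, ih]; rfl

theorem Hs_bd {t : ℕ} (ht : 1 ≤ t) (d : ℕ) : -(4 * t : ℤ) ≤ Hs t d ∧ Hs t d ≤ 5 * t := by
  have : -(4 * t : ℤ) ≤ Hs t d ∧ Hs t d ≤ 4 * t + 1 := by
    induction d with
    | zero => simp [Hs]; omega
    | succ d ih => rw [Hs]; split_ifs <;> omega
  omega

omit [NeZero n] in
theorem sum_sp (e : ℕ → ℤ) (d : ℕ) {η : ℝ} (hη : 0 < η) (f : Sd (d + 1) n → ℝ) :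
    ∑ a, η ^ ht (wt n e (d + 1)) a * f a =
      ∑ a, η ^ ht (wt n e d) a * ∑ b, (η ^ e d) ^ lev b * f (sp.symm (b, a)) := by
  rw [← sp.symm.sum_comp, Fintype.sum_prod_type_right]
  simp only [ht_sp, Equiv.apply_symm_apply, mul_sum, zpow_add₀ hη.ne', zpow_mul, zpow_natCast]
  exact sum_congr rfl fun _ _ => sum_congr rfl fun _ _ => by ring

theorem step (e : ℕ → ℤ) (d : ℕ) {η θ u s B : ℝ} (hη : 0 < η) (hθ : 0 ≤ θ)
    (h : ∀ J : Finset (Fin n), θ * (1 - (1 - u) ^ J.card) * ∑ b : Ly n, (η ^ e d) ^ lev b ≤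
      Psi K J (η ^ e d) s)
    (h1 : B * tot (wt n e d) η ≤
      ∑ a, η ^ ht (wt n e d) a * (1 - (1 - u) ^ (Jset K d a).card)) :
    θ * B * tot (wt n e (d + 1)) η ≤
      ∑ a, η ^ ht (wt n e (d + 1)) a * ∑ k ∈ Jset K (d + 1) a, (1 - s) * s ^ k.val := by
  have h2 := sum_sp (n := n) e d hη fun _ => 1
  simp only [mul_one, ← sum_mul] at h2
  rw [sum_sp e d hη, tot, h2]
  calc _ = θ * (B * tot (wt n e d) η) * ∑ b : Ly n, (η ^ e d) ^ lev b := by rw [tot]; ring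
    _ ≤ θ * (∑ a, η ^ ht (wt n e d) a * (1 - (1 - u) ^ (Jset K d a).card)) * _ := by gcongr
    _ ≤ _ := by
      rw [mul_sum _ _ θ, sum_mul]
      refine sum_le_sum fun a _ => ?_
      rw [mul_left_comm, mul_assoc]
      simpa only [Jset, Equiv.apply_symm_apply, Psi] using
        mul_le_mul_of_nonneg_left (h (Jset K d a)) (zpow_pos hη _).le

theorem dp {t : ℕ} {η ε : ℝ} (hη : 1 < η) (ht1 : 1 ≤ t) (h1 : (η ^ (1 - 4 * t : ℤ)) ^ 4 ≤ ε)
    (h2 : 3 * ε ≤ 1) (h3 : (1 - ε * η ^ (-(9 * t) : ℤ)) ^ n ≤ ε * (ε * η ^ (-(9 * t) : ℤ)))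
    (d : ℕ) : (1 - 3 * ε) ^ d * (ε * η ^ (-(4 * t) : ℤ)) * tot (wt n (es t) d) η ≤
      ∑ a, η ^ ht (wt n (es t) d) a *
        (1 - (1 - ε * η ^ (-(4 * t) - Hs t d)) ^ (Jset K d a).card) := by
  have h0 : 0 < η := by positivity
  have hε : 0 < ε := lt_of_lt_of_le (by positivity) h1
  have h4 : ∀ d, ε * η ^ (-(4 * t) - Hs t d) ≤ ε := fun d =>
    mul_le_of_le_one_right hε.le (zpow_le_one_of_nonpos₀ hη.le (by have := Hs_bd ht1 d; omega))
  have h5 : ∀ d, ε * η ^ (-(9 * t) : ℤ) ≤ ε * η ^ (-(4 * t) - Hs t d) := fun d =>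
    mul_le_mul_of_nonneg_left (zpow_le_zpow_right₀ hη.le (by have := Hs_bd ht1 d; omega)) hε.le
  induction d with
  | zero => simp [tot, Jset, Hs, mul_comm]
  | succ d ih =>
    have a1 : η ^ es t d * (ε * η ^ (-(4 * t) - Hs t (d + 1))) = ε * η ^ (-(4 * t) - Hs t d) := by
      rw [mul_left_comm, ← zpow_add₀ h0.ne', Hs, es]; congr 2; ring
    have a2 := h4 (d + 1)
    have a3 := h4 d
    have a4 : 0 < ε * η ^ (-(4 * t) - Hs t (d + 1)) := by positivity
    rw [pow_succ', mul_assoc _ (_ ^ d)]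
    refine (step (s := 1 - ε * η ^ (-(4 * t) - Hs t (d + 1))) _ d h0 (by linarith)
      (fun J => ?_) ih).trans (sum_le_sum fun a _ => mul_le_mul_of_nonneg_left
        (sum_geom_le (by linarith) (by linarith) _) (by positivity))
    have a5 : 0 ≤ 1 - (1 - ε * η ^ (-(4 * t) - Hs t d)) ^ J.card :=
      sub_nonneg.2 (pow_le_one₀ (by linarith) (sub_le_self _ (by positivity)))
    by_cases h : Hs t d ≤ 0
    · have a6 : es t d = 4 * t + 1 := if_pos h
      refine le_trans ?_ (layer_y J (δ := ε) (one_le_zpow₀ hη.le (by omega)) a4 (by linarith) hε.le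
        ?_)
      · rw [a1]
        have : (η ^ es t d)⁻¹ ^ 4 ≤ ε := by
          rw [← zpow_neg]
          exact le_trans (pow_le_pow_left₀ (by positivity)
            (zpow_le_zpow_right₀ hη.le (by omega)) _) h1
        gcongr
        nlinarith [pow_pos (inv_pos.2 (zpow_pos h0 (es t d))) 4]
      · rw [a1]
        exact (pow_le_pow_left₀ (by linarith) (sub_le_sub_left (h5 _) _) _).trans
          (h3.trans (mul_le_mul_of_nonneg_left (h5 d) hε.le))
    · have a6 : es t d = 1 - 4 * t := if_neg h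
      refine le_trans ?_ (layer_z J (by positivity) (zpow_le_one_of_nonpos₀ hη.le (by omega)) a4.le
        (by linarith))
      rw [a1]
      gcongr
      rw [a6]
      linarith

theorem lower {t : ℕ} {η ε : ℝ} (hη : 1 < η) (ht1 : 1 ≤ t) (h1 : (η ^ (1 - 4 * t : ℤ)) ^ 4 ≤ ε)
    (h2 : 3 * ε ≤ 1) (h3 : (1 - ε * η ^ (-(9 * t) : ℤ)) ^ n ≤ ε * (ε * η ^ (-(9 * t) : ℤ)))
    (d : ℕ) : (1 - 3 * ε) ^ d * ε * η ^ (-(13 * t) : ℤ) / 5 * tot (wt n (es t) (d + 1)) η ≤
      mu (wt n (es t) (d + 1)) (Hs t (d + 1)) η (F K n (d + 1) 0) := by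
  have h0 : 0 < η := by positivity
  have hε : 0 < ε := lt_of_lt_of_le (by positivity) h1
  have h4 := le_mu (K := K) (n := n) (es t) (d + 1) h0
  rw [sum_es] at h4
  have h5 := step (s := 0) (θ := η ^ (-(4 * t) : ℤ) / 5) _ d h0 (by positivity) (fun J => ?_)
    (dp (K := K) hη ht1 h1 h2 h3 d)
  · have h6 : ∀ T : Finset (Fin n), ∑ k ∈ T, (1 - 0) * (0 : ℝ) ^ k.val = if 0 ∈ T then 1 else 0 :=
      fun T => by simp [zero_pow_eq]
    simp only [h6, mul_ite, mul_one, mul_zero, ← sum_filter] at h5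
    refine le_trans ?_ (le_trans (mul_le_mul (zpow_le_zpow_right₀ hη.le
      (neg_le_neg (Hs_bd ht1 _).2)) h5 ?_ (by positivity)) h4)
    · rw [show (-(13 * t) : ℤ) = -(5 * t) + -(4 * t) + -(4 * t) by ring, zpow_add₀ h0.ne',
        zpow_add₀ h0.ne']
      exact le_of_eq (by ring)
    · have := sub_nonneg.2 h2
      have : 0 ≤ tot (wt n (es t) (d + 1)) η := sum_nonneg fun _ _ => by positivity
      positivity
  · obtain ⟨r, hr⟩ : ∃ r, r = η ^ es t d := ⟨_, rfl⟩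
    have a1 : 0 < r := by rw [hr]; positivity
    have a2 : η ^ (-(4 * t) : ℤ) ≤ min r 1 := le_min (hr ▸ zpow_le_zpow_right₀ hη.le
      (by rw [es]; split_ifs <;> omega)) (zpow_le_one_of_nonpos₀ hη.le (by omega))
    rw [← hr]
    obtain ⟨D, hD⟩ : ∃ D, D = ∑ a : Fin 5, r ^ a.val := ⟨_, rfl⟩
    have a3 : D = 1 + r + r ^ 2 + r ^ 3 + r ^ 4 := by simp [hD, Fin.sum_univ_succ]; ring
    have a4 : 0 < D := by rw [a3]; positivity
    refine le_trans ?_ (Psi_z J (p := 1 - 1 / D) a1 le_rfl zero_le_one (by rw [← hD]; field_simp))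
    have a5 : min r 1 / 5 ≤ 1 - 1 / D := by
      rw [le_sub_comm, div_le_iff₀ a4, a3]
      have := pow_pos a1 2
      have := pow_pos a1 3
      have := pow_pos a1 4
      rcases le_total r 1 with h | h
      · rw [min_eq_left h]; nlinarith
      · rw [min_eq_right h]; nlinarith
    have a6 := one_div_pos.2 a4
    have a7 : 0 ≤ ε * η ^ (-(4 * t) - Hs t d) := by positivity
    have a8 : ε * η ^ (-(4 * t) - Hs t d) ≤ ε :=
      mul_le_of_le_one_right hε.le (zpow_le_one_of_nonpos₀ hη.le (by have := Hs_bd ht1 d; omega))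
    have a9 := min_le_right r 1
    have b1 : 0 < η ^ (-(4 * t) : ℤ) := by positivity
    gcongr
    exact conc (by positivity) (by linarith) (by linarith) (by linarith) (by nlinarith) _

end Vale.Agent.P346
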