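import Mathlib

/-! Syntactically homogeneous depth five circuits and iterated matrix multiplication. -/

namespace Vale.Agent.P346

open MvPolynomial

universe u

/-- A layered circuit with leaves `L`, bottom sums `S₁`, lower products `P₂`, middle sums `S₃`,
upper products `P₄` and one output sum. Sum gates have a set of inputs and coefficients,
product gates a multiset of inputs. -/
structure Circuit (V : Type) (K : Type u) where
  L : Type
  S₁ : Type
  P₂ : Type
  S₃ : Type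
  P₄ : Type
  finL : Finite L
  fin₁ : Finite S₁
  fin₂ : Finite P₂
  fin₃ : Finite S₃
  fin₄ : Finite P₄
  leaf : L → V ⊕ K
  in₁ : S₁ → Finset L
  co₁ : S₁ → L → K
  in₂ : P₂ → Multiset S₁
  in₃ : S₃ → Finset P₂
  co₃ : S₃ → P₂ → K
  in₄ : P₄ → Multiset S₃
  in₅ : Finset P₄
  co₅ : P₄ → K

namespace Circuit

variable {V : Type} {K : Type u} (Γ : Circuit V K)

/-- The number of vertices. -/
noncomputable def size : ℕ :=
  Nat.card Γ.L + Nat.card Γ.S₁ + Nat.card Γ.P₂ + Nat.card Γ.S₃ + Nat.card Γ.P₄ + 1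

/-- Formal degree of a leaf. -/
def deg₀ (i : Γ.L) : ℕ := (Γ.leaf i).elim (fun _ => 1) fun _ => 0

/-- Formal degree of a bottom sum. -/
def deg₁ (g : Γ.S₁) : ℕ := (Γ.in₁ g).sup Γ.deg₀

/-- Formal degree of a lower product. -/
def deg₂ (g : Γ.P₂) : ℕ := ((Γ.in₂ g).map Γ.deg₁).sum

/-- Formal degree of a middle sum. -/
def deg₃ (g : Γ.S₃) : ℕ := (Γ.in₃ g).sup Γ.deg₂

/-- Formal degree of an upper product. -/
def deg₄ (g : Γ.P₄) : ℕ := ((Γ.in₄ g).map Γ.deg₃).sum

/-- All inputs of each sum gate have the same formal degree. -/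
def Homog : Prop :=
  (∀ g, ∀ i ∈ Γ.in₁ g, ∀ j ∈ Γ.in₁ g, Γ.deg₀ i = Γ.deg₀ j) ∧
    (∀ g, ∀ i ∈ Γ.in₃ g, ∀ j ∈ Γ.in₃ g, Γ.deg₂ i = Γ.deg₂ j) ∧
      ∀ i ∈ Γ.in₅, ∀ j ∈ Γ.in₅, Γ.deg₄ i = Γ.deg₄ j

variable [Field K]

/-- Polynomial of a leaf. -/
noncomputable def val₀ (i : Γ.L) : MvPolynomial V K := (Γ.leaf i).elim X C

/-- Polynomial of a bottom sum. -/
noncomputable def val₁ (g : Γ.S₁) : MvPolynomial V K := ∑ i ∈ Γ.in₁ g, Γ.co₁ g i • Γ.val₀ i

/-- Polynomial of a lower product. -/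
noncomputable def val₂ (g : Γ.P₂) : MvPolynomial V K := ((Γ.in₂ g).map Γ.val₁).prod

/-- Polynomial of a middle sum. -/
noncomputable def val₃ (g : Γ.S₃) : MvPolynomial V K := ∑ i ∈ Γ.in₃ g, Γ.co₃ g i • Γ.val₂ i

/-- Polynomial of an upper product. -/
noncomputable def val₄ (g : Γ.P₄) : MvPolynomial V K := ((Γ.in₄ g).map Γ.val₃).prod

/-- The polynomial computed at the output gate. -/
noncomputable def output : MvPolynomial V K := ∑ i ∈ Γ.in₅, Γ.co₅ i • Γ.val₄ i

end Circuit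

/-- The top left entry of the product of `d` generic `w × w` matrices. -/
noncomputable def IMM (K : Type u) [Field K] (w d : ℕ) [NeZero w] :
    MvPolynomial (Fin d × Fin w × Fin w) K :=
  (List.ofFn fun i : Fin d => Matrix.of fun j k : Fin w => X (i, j, k)).prod 0 0

/-- The least size of a syntactically homogeneous circuit computing `IMM K n n`. -/
noncomputable def sK (K : Type u) [Field K] (n : ℕ) [NeZero n] : ℕ :=
  sInf {s | ∃ Γ : Circuit (Fin n × Fin n × Fin n) K, Γ.Homog ∧ Γ.output = IMM K n n ∧ Γ.size = s}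

end Vale.Agent.P346
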