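import Vale.Agent.P346.Lead

/-! The greedy chain and its distribution. -/

namespace Vale.Agent.P346

open Finset

variable {n : ℕ}

/-- Length of the greedy diagonal chain after `j` rows. -/
def gr (row col : ℕ → Fin n) (cap : ℕ) (b : Ly n) : ℕ → ℕ
  | 0 => 0
  | j + 1 => if gr row col cap b j < cap ∧ b (col (gr row col cap b j), row j) ≠ 0 then
      gr row col cap b j + 1 else gr row col cap b j

variable {row col : ℕ → Fin n} {cap : ℕ}

theorem gr_le (b : Ly n) (j : ℕ) : gr row col cap b j ≤ cap ∧ gr row col cap b j ≤ j := by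
  induction j with
  | zero => simp [gr]
  | succ j ih => rw [gr]; split_ifs <;> omega

theorem gr_chain (b : Ly n) (j : ℕ) : ∃ ρ : ℕ → ℕ,
    (∀ c < gr row col cap b j, ρ c < j ∧ b (col c, row (ρ c)) ≠ 0) ∧
      ∀ c c', c < c' → c' < gr row col cap b j → ρ c < ρ c' := by
  induction j with
  | zero => simp [gr]
  | succ j ih =>
    obtain ⟨ρ, h1, h2⟩ := ih
    rw [gr]
    split_ifs with h
    · refine ⟨fun c => if c = gr row col cap b j then j else ρ c, fun c hc => ?_,
        fun c c' a b => ?_⟩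
      · dsimp only
        split_ifs with h3
        · exact ⟨j.lt_succ_self, h3 ▸ h.2⟩
        · exact ⟨(h1 c (by omega)).1.trans j.lt_succ_self, (h1 c (by omega)).2⟩
      · dsimp only
        rw [if_neg (by omega)]
        split_ifs with h3
        · exact (h1 c (by omega)).1
        · exact h2 c c' a (by omega)
    · exact ⟨ρ, fun c hc => ⟨(h1 c hc).1.trans j.lt_succ_self, (h1 c hc).2⟩, h2⟩

theorem gr_ch {J : Finset (Fin n)} {m : ℕ} (hrow : StrictMonoOn row (Set.Iio m))
    (hJ : ∀ s < m, row s ∈ J) (b : Ly n) (s : ℕ) (hs : s < gr row col cap b m) :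
    Ch J col b s := by
  obtain ⟨ρ, h1, h2⟩ := gr_chain (row := row) (col := col) (cap := cap) b m
  exact ⟨fun c => row (ρ c), fun c c' h => hrow (h1 c (by omega)).1 (h1 c' (by omega)).1
    (h2 c c' h (by omega)), fun c => ⟨hJ _ (h1 c (by omega)).1, (h1 c (by omega)).2⟩⟩

theorem gr_update (b : Ly n) (v : Fin n × Fin n) (a : Fin 5) (j : ℕ) (h : ∀ i < j, row i ≠ v.2) :
    gr row col cap (Function.update b v a) j = gr row col cap b j := by
  induction j with
  | zero => rfl
  | succ j ih =>
    rw [gr, gr, ih fun i hi => h i (by omega),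
      Function.update_of_ne fun h' => h j j.lt_succ_self (congrArg Prod.snd h')]

/-- Weighted sum over the states of one layer. -/
noncomputable def Ex (w : Fin 5 → ℝ) (F : Ly n → ℝ) : ℝ := ∑ b, (∏ v, w (b v)) * F b

variable {w : Fin 5 → ℝ}

theorem Ex_indep (F : Ly n → ℝ) (v : Fin n × Fin n) (h : ∀ b a, F (Function.update b v a) = F b)
    (φ : Fin 5 → ℝ) : (∑ a, w a) * Ex w (fun b => F b * φ (b v)) = (∑ a, w a * φ a) * Ex w F := by
  have h1 : ∀ φ : Fin 5 → ℝ, Ex w (fun b => F b * φ (b v)) = (∑ a, w a * φ a) *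
      ∑ c : {j // j ≠ v} → Fin 5, (∏ j, w (c j)) * F ((Equiv.funSplitAt v _).symm (0, c)) := by
    intro φ
    rw [Ex, ← (Equiv.funSplitAt v _).symm.sum_comp, Fintype.sum_prod_type, sum_mul_sum]
    refine sum_congr rfl fun a _ => sum_congr rfl fun c _ => ?_
    have : (Equiv.funSplitAt v _).symm (a, c) =
        Function.update ((Equiv.funSplitAt v _).symm (0, c)) v a := by
      ext j; by_cases hj : j = v <;> simp [hj]
    rw [Fintype.prod_eq_mul_prod_subtype_ne _ v, ← h ((Equiv.funSplitAt v _).symm (0, c)) a, ← this,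
      prod_congr rfl (g := fun j => w (c j)) fun j _ => by simp [j.2]]
    simp; ring
  have h2 := h1 fun _ => 1
  simp only [mul_one] at h2
  rw [h1, h2]; ring

theorem Ex_mono (hw : ∀ a, 0 ≤ w a) {F G : Ly n → ℝ} (h : ∀ b, F b ≤ G b) : Ex w F ≤ Ex w G :=
  sum_le_sum fun b _ => mul_le_mul_of_nonneg_left (h b) (prod_nonneg fun _ _ => hw _)

theorem Ex_step {p : ℝ} (h0 : ∑ a, w a ≠ 0) (hp : p * ∑ a, w a = ∑ a, w a - w 0) (g : ℕ → ℝ)
    (j : ℕ) (h : ∀ i < j, row i ≠ row j) :
    Ex w (fun b => g (gr row col cap b (j + 1))) = Ex w fun b => g (gr row col cap b j) +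
      if gr row col cap b j < cap then p * (g (gr row col cap b j + 1) - g (gr row col cap b j))
      else 0 := by
  have h1 : ∀ x, Ex w (fun b => (if gr row col cap b j = x then g (x + 1) - g x else 0) *
      if b (col x, row j) = 0 then 0 else 1) =
      Ex w fun b => p * if gr row col cap b j = x then g (x + 1) - g x else 0 := fun x => by
    refine mul_left_cancel₀ h0 ?_
    rw [Ex_indep (fun b => if gr row col cap b j = x then g (x + 1) - g x else 0) (col x, row j)
      (fun b a => by rw [gr_update _ _ _ _ h]) fun a => if a = 0 then 0 else 1]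
    have : ∑ a, w a * (if a = 0 then 0 else 1) = p * ∑ a, w a := by
      rw [hp]; simp [Fin.sum_univ_succ]
    rw [this, mul_comm p, mul_assoc]
    simp only [Ex, mul_sum, mul_left_comm p]
  have h2 := sum_congr (s₁ := range cap) rfl fun x _ => h1 x
  simp only [Ex] at h2 ⊢
  rw [sum_comm, sum_comm (s := range cap)] at h2
  simp only [← mul_sum, ite_mul, zero_mul, sum_ite_eq, mem_range] at h2
  simp only [mul_ite _ p, mul_zero] at h2
  simp only [mul_add, sum_add_distrib, ← h2]
  rw [← sum_add_distrib]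
  refine sum_congr rfl fun b _ => ?_
  rw [gr, ← mul_add]
  split_ifs <;> simp_all

theorem Ex_z {p s : ℝ} (h0 : ∑ a, w a ≠ 0) (hp : p * ∑ a, w a = ∑ a, w a - w 0)
    (h1 : p * (1 - s) ≤ 1) {m : ℕ} (hm : m ≤ cap) (hrow : StrictMonoOn row (Set.Iio m)) (j : ℕ)
    (hj : j ≤ m) : Ex w (fun b => s ^ gr row col cap b j) ≤
      (1 - p * (1 - s)) ^ j * Ex (n := n) w fun _ => 1 := by
  induction j with
  | zero => simp [gr]
  | succ j ih =>
    rw [Ex_step h0 hp (s ^ ·) j fun i hi => (hrow (by simp; omega) (by simp; omega) hi).ne,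
      pow_succ', mul_assoc]
    refine le_trans (le_of_eq ?_) (mul_le_mul_of_nonneg_left (ih (by omega)) (by linarith))
    simp only [Ex, mul_sum]
    refine sum_congr rfl fun b _ => ?_
    rw [if_pos (by have := (gr_le (row := row) (col := col) (cap := cap) b j).2; omega)]
    ring

theorem Ex_y {p s s' : ℝ} (h0 : ∑ a, w a ≠ 0) (hp : p * ∑ a, w a = ∑ a, w a - w 0)
    (h1 : s * (s' + p * (1 - s')) = s') {m : ℕ} (hrow : StrictMonoOn row (Set.Iio m)) (j : ℕ)
    (hj : j ≤ m) : p * (1 - s ^ j - s' ^ cap) * (Ex (n := n) w fun _ => 1) +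
      p * s ^ j * Ex w (fun b => s' ^ (cap - gr row col cap b j)) =
      ∑ i ∈ range j, (1 - s) * s ^ i *
        (Ex w (fun b => gr row col cap b (i + 1)) - Ex w fun b => gr row col cap b i) := by
  induction j with
  | zero => simp [gr, Ex, ← sum_mul]; ring
  | succ j ih =>
    have h2 : ∀ i < j, row i ≠ row j := fun i hi =>
      (hrow (by simp; omega) (by simp; omega) hi).ne
    rw [sum_range_succ, ← ih (by omega), Ex_step h0 hp (fun x => s' ^ (cap - x)) j h2,
      Ex_step h0 hp (fun x => x) j h2]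
    simp only [Ex, mul_sum, ← sum_add_distrib, ← sum_sub_distrib]
    refine sum_congr rfl fun b _ => ?_
    split_ifs with h3
    · obtain ⟨k, hk⟩ : ∃ k, cap - gr row col cap b j = k + 1 := ⟨_, (Nat.sub_add_cancel (by omega)).symm⟩
      rw [show cap - (gr row col cap b j + 1) = k by omega, hk]
      push_cast
      linear_combination (∏ v, w (b v)) * p * s ^ j * s' ^ k * h1
    · rw [show cap - gr row col cap b j = 0 by omega]
      ring

end Vale.Agent.P346
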