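import Vale.Agent.P346.Greedy

/-! Weighted counts of leading positions for one layer. -/

namespace Vale.Agent.P346

open Finset Matrix

variable {K : Type*} [Field K] {n : ℕ}

/-- The order on positions. -/
noncomputable def od (x : Ly n × Fin n) : ℤ :=
  (Fintype.equivFin (Ly n) x.1).val - Fintype.card (Ly n) * (x.2.val : ℤ)

theorem od_lt {x y : Ly n × Fin n} (h : x.2 < y.2) : od y < od x := by
  have h1 : (x.2.val : ℤ) + 1 ≤ y.2.val := by exact_mod_cast h
  have h2 : ((Fintype.equivFin (Ly n) y.1).val : ℤ) < Fintype.card (Ly n) := by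
    exact_mod_cast (Fintype.equivFin (Ly n) y.1).2
  unfold od
  nlinarith

theorem od_inj : Function.Injective (od : Ly n × Fin n → ℤ) := fun x y h => by
  rcases lt_trichotomy x.2 y.2 with h1 | h1 | h1
  · exact ((od_lt h1).ne' h).elim
  · refine Prod.ext ((Fintype.equivFin (Ly n)).injective (Fin.ext ?_)) h1
    simpa [od, h1] using h
  · exact ((od_lt h1).ne h).elim

open Classical in
variable (K) in
/-- The available outputs. -/
noncomputable def Js (J : Finset (Fin n)) (b : Ly n) : Finset (Fin n) :=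
  univ.filter fun k => ∃ g, Ld od (Lm K J *ᵥ g) (b, k)

/-- Initial segments. -/
def ini (n j : ℕ) : Finset (Fin n) := univ.filter (·.val < j)

theorem card_ini {j : ℕ} (h : j ≤ n) : (ini n j).card = j := by
  rw [ini, Fin.card_filter_val_lt, min_eq_right h]

theorem sum_lev (f : ℕ → ℝ) (x : Ly n → ℕ) : ∑ b, f (lev b) * x b =
    ∑ t ∈ range (4 * (n * n) + 2), f t * (∑ b with lev b = t, x b : ℕ) := by
  rw [← sum_fiberwise_of_maps_to (g := lev) (t := range (4 * (n * n) + 2))
    fun b _ => by have := lev_flip b; simp; omega]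
  refine sum_congr rfl fun t _ => ?_
  rw [Nat.cast_sum, mul_sum]
  exact sum_congr rfl fun b hb => by rw [(mem_filter.1 hb).2]

theorem rank_le_Js (J : Finset (Fin n)) (j t : ℕ) :
    (Lt K J (ini n j) t).rank ≤ ∑ b with lev b = t, (Js K J b ∩ ini n j).card := by
  classical
  have := rank_le_lead (Lm K J) od_inj Lm_lev (fun x => x.2 ∈ ini n j) (fun x x' h1 h2 => by
    have := mt (od_lt (x := x) (y := x')) h2.not_gt
    simp only [ini, mem_filter, mem_univ, true_and, Fin.lt_def] at *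
    omega) t
  refine le_trans (le_of_eq (by unfold Lt; congr!)) (this.trans (le_of_eq ?_))
  rw [← card_sigma]
  refine card_bij (fun x _ => ⟨x.1, x.2⟩) (fun x hx => ?_) (fun x _ y _ h => ?_)
    fun ⟨b, k⟩ h => ⟨(b, k), ?_, rfl⟩
  · simp only [mem_filter, mem_univ, true_and] at hx
    simp [Js, hx.1, hx.2.1, hx.2.2]
  · simpa [Prod.ext_iff] using h
  · simp only [Js, mem_sigma, mem_filter, mem_univ, true_and, mem_inter] at h ⊢
    exact ⟨h.2.1, h.2.2, h.1⟩

theorem abel_le (c x y : ℕ → ℝ) (m : ℕ) (hc : ∀ k, 0 ≤ c k) (hc' : ∀ k, c (k + 1) ≤ c k)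
    (h : ∀ j ≤ m, ∑ k ∈ range j, x k ≤ ∑ k ∈ range j, y k) :
    ∑ k ∈ range m, c k * x k ≤ ∑ k ∈ range m, c k * y k := by
  have : ∀ j ≤ m, c j * (∑ k ∈ range j, y k - ∑ k ∈ range j, x k) ≤
      ∑ k ∈ range j, c k * y k - ∑ k ∈ range j, c k * x k := by
    intro j hj
    induction j with
    | zero => simp
    | succ j ih =>
      have a1 := ih (by omega)
      have a2 := mul_le_mul_of_nonneg_right (hc' j) (sub_nonneg.2 (h _ hj))
      simp only [sum_range_succ] at a2 ⊢
      linarith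
  have a1 := this m le_rfl
  have a2 := mul_nonneg (hc m) (sub_nonneg.2 (h m le_rfl))
  linarith

variable (K) in
/-- The weighted generating function of available outputs. -/
noncomputable def Psi (J : Finset (Fin n)) (r s : ℝ) : ℝ :=
  ∑ b, r ^ lev b * ∑ k ∈ Js K J b, (1 - s) * s ^ k.val

theorem le_Psi (J : Finset (Fin n)) {r s : ℝ} (hr : 0 ≤ r) (hs : 0 ≤ s) (hs' : s ≤ 1) (x : ℕ → ℝ)
    (h : ∀ j ≤ n, ∑ k ∈ range j, x k ≤
      ∑ t ∈ range (4 * (n * n) + 2), r ^ t * (Lt K J (ini n j) t).rank) :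
    ∑ k ∈ range n, (1 - s) * s ^ k * x k ≤ Psi K J r s := by
  let y : ℕ → ℝ := fun k => ∑ b, r ^ lev b * ∑ i ∈ Js K J b, if i.val = k then 1 else 0
  refine (abel_le _ x y n (fun k => by have := sub_nonneg.2 hs'; positivity) (fun k =>
    mul_le_mul_of_nonneg_left (pow_le_pow_of_le_one hs hs' k.le_succ) (sub_nonneg.2 hs'))
    fun j hj => (h j hj).trans ?_).trans (le_of_eq ?_)
  · refine (sum_le_sum fun t _ => mul_le_mul_of_nonneg_left (Nat.cast_le.2 (rank_le_Js J j t))
      (by positivity)).trans (le_of_eq ?_)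
    rw [← sum_lev (r ^ ·), sum_comm]
    refine sum_congr rfl fun b _ => ?_
    rw [← mul_sum, sum_comm]
    simp [ini, inter_filter]
  · simp only [y, mul_sum, Psi]
    rw [sum_comm]
    refine sum_congr rfl fun b _ => ?_
    rw [sum_comm]
    simp [mul_comm]

theorem sum_geom_le {s : ℝ} (hs : 0 ≤ s) (hs' : s ≤ 1) (T : Finset (Fin n)) :
    ∑ k ∈ T, (1 - s) * s ^ k.val ≤ 1 - s ^ T.card := by
  rw [← sum_coe_sort, ← (T.orderIsoOfFin rfl).toEquiv.sum_comp, ← mul_neg_geom_sum, mul_sum,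
    sum_range]
  refine sum_le_sum fun i _ => mul_le_mul_of_nonneg_left (pow_le_pow_of_le_one hs hs' ?_)
    (sub_nonneg.2 hs')
  have : StrictMono fun i : Fin T.card => (T.orderEmbOfFin rfl i).val :=
    (T.orderEmbOfFin rfl).strictMono
  obtain ⟨i, hi⟩ := i
  change i ≤ (T.orderEmbOfFin rfl ⟨i, hi⟩).val
  induction i with
  | zero => exact Nat.zero_le _
  | succ i ih => exact (ih (by omega) (mem_univ _)).trans_lt (this (Nat.lt_succ_self i))

variable [NeZero n]

/-- Increasing enumeration of a set. -/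
noncomputable def en (J : Finset (Fin n)) (i : ℕ) : Fin n :=
  if h : i < J.card then J.orderEmbOfFin rfl ⟨i, h⟩ else 0

theorem en_mono (J : Finset (Fin n)) : StrictMonoOn (en J) (Set.Iio J.card) := fun a ha b hb h => by
  rw [en, en, dif_pos (show a < _ from ha), dif_pos (show b < _ from hb)]
  exact (J.orderEmbOfFin rfl).strictMono h

theorem en_mem (J : Finset (Fin n)) (s : ℕ) (hs : s < J.card) : en J s ∈ J := by
  rw [en, dif_pos hs]; exact orderEmbOfFin_mem _ _ _

theorem en_surj (J : Finset (Fin n)) (k : Fin n) (hk : k ∈ J) : ∃ s < J.card, en J s = k := by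
  obtain ⟨i, hi⟩ := (J.range_orderEmbOfFin rfl).ge hk
  exact ⟨i, i.2, by rw [en, dif_pos i.2, hi]⟩

theorem ofNat_mono {j : ℕ} (h : j ≤ n) : StrictMonoOn (Fin.ofNat n) (Set.Iio j) :=
  fun a ha b hb hab => by
    simp only [Set.mem_Iio] at ha hb
    rw [Fin.lt_def, Fin.val_ofNat, Fin.val_ofNat, Nat.mod_eq_of_lt, Nat.mod_eq_of_lt] <;> omega

theorem ofNat_mem {j : ℕ} (h : j ≤ n) (s : ℕ) (hs : s < j) : Fin.ofNat n s ∈ ini n j := by
  simp [ini, Nat.mod_eq_of_lt (hs.trans_le h), hs]

theorem Psi_z (J : Finset (Fin n)) {r s p : ℝ} (hr : 0 < r) (hs : 0 ≤ s) (hs' : s ≤ 1)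
    (hp : p * ∑ a : Fin 5, r ^ a.val = ∑ a : Fin 5, r ^ a.val - 1) :
    (1 - (1 - p * (1 - s)) ^ J.card) * ∑ b : Ly n, r ^ lev b ≤ Psi K J r s := by
  have h0 : 0 < ∑ a : Fin 5, r ^ a.val := by positivity
  have h1 := Ex_z (w := fun a => r ^ a.val) (row := en J) (col := Fin.ofNat n) (cap := n) (s := s)
    h0.ne' hp (by nlinarith) (by simpa using card_le_univ J) (en_mono J) _ le_rfl
  simp only [Ex, prod_pow_eq_pow_sum, mul_one] at h1
  refine le_trans ?_ (le_Psi J hr.le hs hs' (fun k => ∑ b, r ^ lev b *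
    if k < gr (en J) (Fin.ofNat n) n b J.card then 1 else 0) fun j hj => ?_)
  · rw [sub_mul, one_mul]
    refine le_trans (sub_le_sub_left h1 _) (le_of_eq ?_)
    simp only [mul_sum]
    rw [sum_comm, ← sum_sub_distrib]
    refine sum_congr rfl fun b _ => ?_
    have a1 := (gr_le (row := en J) (col := Fin.ofNat n) (cap := n) b J.card).1
    generalize gr (en J) (Fin.ofNat n) n b J.card = g at a1 ⊢
    simp only [mul_ite, mul_one, mul_zero]
    rw [← sum_filter, show (range n).filter (· < g) = range g by ext; simp; omega, ← sum_mul,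
      ← mul_sum, mul_neg_geom_sum, lev]
    ring
  · rw [sum_comm]
    refine le_trans (le_of_eq ?_) ((sum_lev (r ^ ·) fun b =>
      min j (gr (en J) (Fin.ofNat n) n b J.card)).trans_le (sum_le_sum fun t _ =>
        mul_le_mul_of_nonneg_left (Nat.cast_le.2 (chain_rank J _ (Fin.ofNat n) ?_ ?_ ?_ _ ?_
          (fun b s hs => gr_ch (en_mono J) (en_mem J) b s (hs.trans_le (min_le_right _ _))) t))
          (by positivity)))
    · refine sum_congr rfl fun b _ => ?_
      rw [← mul_sum, sum_boole, ← card_range (min _ _)]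
      congr 3
      ext; simp
    all_goals rw [card_ini hj]
    · exact ofNat_mono hj
    · exact fun k hk => ⟨k, by simpa [ini] using hk, by simp⟩
    · exact ofNat_mem hj
    · exact fun _ => min_le_left _ _

theorem Psi_y (J : Finset (Fin n)) {r s s' p : ℝ} (hr : 0 < r) (hs : 0 ≤ s) (hs' : s ≤ 1)
    (hp : p * ∑ a : Fin 5, r ^ a.val = ∑ a : Fin 5, r ^ a.val - r ^ 4) (hp0 : 0 ≤ p) (h2 : 0 ≤ s')
    (h3 : s * (s' + p * (1 - s')) = s') :
    r * p * (1 - s ^ n - s' ^ J.card) * ∑ b : Ly n, r ^ lev b ≤ Psi K J r s := by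
  have h4 : ∑ a : Fin 5, r ^ (4 - a.val) = ∑ a : Fin 5, r ^ a.val := by
    simp [Fin.sum_univ_succ]; ring
  have h5 : ∀ b : Ly n, ∏ v, r ^ (4 - (b v).val) = r ^ lev (flip b) := fun b => by
    rw [prod_pow_eq_pow_sum, lev, ← (Equiv.prodComm _ _).sum_comp]
    simp [flip]
  have h1 := Ex_y (w := fun a => r ^ (4 - a.val)) (row := Fin.ofNat n) (col := en J)
    (cap := J.card) (by positivity) (by rw [h4, hp]; rfl) h3 (ofNat_mono le_rfl) _ le_rfl
  refine le_trans ?_ (le_Psi J hr.le hs hs' (fun k => r *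
    (Ex (fun a => r ^ (4 - a.val)) (fun b => gr (Fin.ofNat n) (en J) J.card b (k + 1)) -
      Ex (fun a => r ^ (4 - a.val)) fun b => gr (Fin.ofNat n) (en J) J.card b k)) fun j hj => ?_)
  · simp only [mul_left_comm _ r, ← mul_sum, ← h1]
    have a1 : (Ex (n := n) (fun a => r ^ (4 - a.val)) fun _ => 1) = ∑ b : Ly n, r ^ lev b := by
      simp only [Ex, h5, mul_one]
      exact flip.sum_comp (r ^ lev ·)
    have a2 : 0 ≤ Ex (n := n) (fun a => r ^ (4 - a.val))
        fun b => s' ^ (J.card - gr (Fin.ofNat n) (en J) J.card b n) :=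
      sum_nonneg fun _ _ => by positivity
    rw [a1, mul_assoc, mul_assoc, mul_assoc p]
    gcongr
    exact le_add_of_nonneg_right (by positivity)
  · rw [← mul_sum, sum_range_sub fun k => Ex (fun a => r ^ (4 - a.val))
      fun b => gr (Fin.ofNat n) (en J) J.card b k, ← sum_range_reflect]
    refine le_trans (le_of_eq ?_) ((sum_lev (fun t => r ^ (4 * (n * n) + 2 - 1 - t)) fun b =>
      gr (Fin.ofNat n) (en J) J.card b j).trans_le (sum_le_sum fun t ht =>
        mul_le_mul_of_nonneg_left (Nat.cast_le.2 ((chain_rank (K := K) (ini n j) J (en J)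
          (en_mono J) (en_surj J) (en_mem J) _ (fun b => (gr_le b j).1)
          (gr_ch (ofNat_mono hj) (ofNat_mem hj)) t).trans (Lt_rank_flip _ _ ?_).le))
          (by positivity)))
    · simp only [Ex, gr, h5, Nat.cast_zero, mul_zero, sum_const_zero, sub_zero, mul_sum]
      refine sum_congr rfl fun b _ => ?_
      have := lev_flip b
      rw [← mul_assoc, ← pow_succ']
      congr 2
      omega
    · rw [mem_range] at ht; omega

end Vale.Agent.P346
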