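import Vale.Agent.P346.Mat

/-! Leading positions and rank bounds for one layer. -/

namespace Vale.Agent.P346

open Finset MvPolynomial Matrix

set_option linter.unusedSectionVars false

variable {K : Type*} [Field K]

section

variable {X Y : Type} [Fintype X] [Fintype Y] [DecidableEq X] [DecidableEq Y]

/-- The vector has a strictly leading coefficient one at `x`. -/
def Ld (o : X → ℤ) (v : X → K) (x : X) : Prop := v x = 1 ∧ ∀ x' ≠ x, v x' ≠ 0 → o x' < o x

theorem card_le_rank (N : Matrix X Y K) (o : X → ℤ) (S : Finset X)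
    (h : ∀ x ∈ S, ∃ g, Ld o (N *ᵥ g) x) : S.card ≤ N.rank := by
  classical
  choose g hg using h
  have h1 : LinearIndependent K fun x : S =>
      (⟨N *ᵥ g x x.2, _, rfl⟩ : LinearMap.range N.mulVecLin) := by
    refine LinearIndependent.of_comp (Submodule.subtype _) (Fintype.linearIndependent_iff.2 ?_)
    intro c hc
    by_contra! h2
    obtain ⟨x, h3, h4⟩ := exists_max_image (univ.filter fun x => c x ≠ 0) (fun x => o x)
      (by obtain ⟨x, hx⟩ := h2; exact ⟨x, by simpa using hx⟩)
    have := congrFun hc x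
    rw [Finset.sum_apply, sum_eq_single x] at this
    · simp [(hg _ x.2).1] at this h3
      exact h3 this
    · intro y _ hy
      by_contra h5
      exact ((hg _ y.2).2 x (fun h => hy (Subtype.ext h.symm)) (right_ne_zero_of_mul h5)).not_ge
        (h4 y (by simpa using left_ne_zero_of_mul h5))
    · simp
  simpa [Matrix.rank] using h1.fintype_card_le_finrank

theorem mulVec_restrict {G : Type} [DecidableEq G] {N : Matrix X Y K} {φ : X → G} {ψ : Y → G}
    (h : ∀ x y, N x y ≠ 0 → φ x = ψ y) (g : Y → K) (c : G) (x : X) :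
    (N *ᵥ fun y => if ψ y = c then g y else 0) x = if φ x = c then (N *ᵥ g) x else 0 := by
  simp only [mulVec, dotProduct, mul_ite, mul_zero]
  split_ifs with h1
  · refine sum_congr rfl fun y _ => ?_
    split_ifs with h2
    · rfl
    · by_contra h3
      exact h2 ((h x y (left_ne_zero_of_mul (Ne.symm h3))).symm.trans h1)
  · refine sum_eq_zero fun y _ => ?_
    split_ifs with h2
    · by_contra h3
      exact h1 ((h x y (left_ne_zero_of_mul h3)).trans h2)
    · rfl

open Classical in
theorem rank_le_lead (N : Matrix X Y K) {o : X → ℤ} (ho : Function.Injective o) {φ : X → ℕ}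
    {ψ : Y → ℕ} (h : ∀ x y, N x y ≠ 0 → φ x = ψ y) (Z : X → Prop)
    (hZ : ∀ x x', Z x → o x ≤ o x' → Z x') (t : ℕ) :
    (of fun x y => if Z x ∧ φ x = t then N x y else 0).rank ≤
      (univ.filter fun x => (∃ g, Ld o (N *ᵥ g) x) ∧ Z x ∧ φ x = t).card := by
  set S := univ.filter fun x => (∃ g, Ld o (N *ᵥ g) x) ∧ Z x ∧ φ x = t
  set N' : Matrix X Y K := of fun x y => if Z x ∧ φ x = t then N x y else 0
  have h0 : ∀ g x, (N' *ᵥ g) x = if Z x ∧ φ x = t then (N *ᵥ g) x else 0 := fun g x => by
    simp only [N', mulVec, dotProduct, of_apply]; split_ifs <;> simp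
  have := LinearMap.finrank_le_finrank_of_injective
    (f := LinearMap.funLeft K K (Subtype.val : S → X) ∘ₗ (LinearMap.range N'.mulVecLin).subtype)
    (by
      rw [injective_iff_map_eq_zero]
      rintro ⟨_, g, rfl⟩ hg
      by_contra h1
      obtain ⟨x₀, h2⟩ := Function.ne_iff.1 (mt Subtype.ext h1)
      have h3 := mulVec_restrict h g t
      simp only [mulVecLin_apply, h0, ne_eq, ZeroMemClass.coe_zero, Pi.zero_apply,
        ite_eq_right_iff, not_forall] at h2
      obtain ⟨h2, h4⟩ := h2
      obtain ⟨x, h5, h6⟩ := exists_max_image (univ.filter fun x => φ x = t ∧ (N *ᵥ g) x ≠ 0) o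
        ⟨x₀, by simp [h2.2, h4]⟩
      simp only [mem_filter, mem_univ, true_and] at h5 h6
      have h7 := hZ _ _ h2.1 (h6 x₀ ⟨h2.2, h4⟩)
      have h8 : x ∈ S := mem_filter.2 ⟨mem_univ _,
        ⟨((N *ᵥ g) x)⁻¹ • fun y => if ψ y = t then g y else 0, by
          simp [mulVec_smul, h3, h5.1, h5.2], fun x' a b => by
          rw [mulVec_smul, Pi.smul_apply, h3] at b
          have := right_ne_zero_of_mul b
          exact lt_of_le_of_ne (h6 x' (by simpa using this)) (ho.ne a)⟩, h7, h5.1⟩
      have := congrFun hg ⟨x, h8⟩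
      simp [LinearMap.funLeft_apply, h0, h7, h5.1, h5.2] at this)
  simpa [Matrix.rank] using this

end

variable {n : ℕ}

/-- States of one layer. -/
abbrev Ly (n : ℕ) : Type := St (Fin n × Fin n)

variable (K) in
/-- The matrix of one layer with inputs restricted to `J`. -/
noncomputable def Lm (J : Finset (Fin n)) : Matrix (Ly n × Fin n) (Ly n × Fin n) K :=
  fun x y => if y.2 ∈ J then Mat (X (x.2, y.2)) x.1 y.1 else 0

/-- The level of a state. -/
def lev (b : Ly n) : ℕ := ∑ v, (b v : ℕ)

variable (K) in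
/-- Graded restricted layer matrix. -/
noncomputable def Lt (J Z : Finset (Fin n)) (t : ℕ) : Matrix (Ly n × Fin n) (Ly n × Fin n) K :=
  of fun x y => if x.2 ∈ Z ∧ lev x.1 = t then Lm K J x y else 0

theorem Lm_ne {J : Finset (Fin n)} {x y : Ly n × Fin n} (h : Lm K J x y ≠ 0) :
    y.2 ∈ J ∧ toF x.1 = Finsupp.single (x.2, y.2) 1 + toF y.1 := by
  rw [Lm] at h
  split_ifs at h with h1
  · obtain ⟨m, h2, h3⟩ := Mat_ne h
    rw [support_X, mem_singleton] at h2
    exact ⟨h1, h2 ▸ h3⟩
  · exact (h rfl).elim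

theorem Lm_lev {J : Finset (Fin n)} (x y : Ly n × Fin n) (h : Lm K J x y ≠ 0) :
    lev x.1 = lev y.1 + 1 := by
  have := congrArg Finsupp.degree (Lm_ne h).2
  simpa [Finsupp.degree_eq_sum, lev, add_comm, sum_add_distrib, Finsupp.single_apply] using this

/-- Complement and transpose. -/
def flip : Ly n ≃ Ly n where
  toFun b v := (b v.swap).rev
  invFun b v := (b v.swap).rev
  left_inv b := by ext; simp
  right_inv b := by ext; simp

theorem lev_flip (b : Ly n) : lev (flip b) + lev b = 4 * (n * n) := by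
  rw [lev, lev, ← (Equiv.prodComm _ _).sum_comp, ← sum_add_distrib,
    sum_congr rfl (g := fun _ => 4) fun v _ => by simp [flip]; omega]
  simp [mul_comm]

theorem Lt_rank_flip (J Z : Finset (Fin n)) {t t' : ℕ} (h : t + t' = 4 * (n * n) + 1) :
    (Lt K J Z t).rank = (Lt K Z J t').rank := by
  rw [← rank_transpose, ← rank_submatrix _ (flip.prodCongr (.refl _)) (flip.prodCongr (.refl _))]
  congr 1
  ext ⟨b', k⟩ ⟨b, j⟩
  have h1 : Finsupp.single (j, k) 1 + toF (flip b') = toF (flip b) ↔
      Finsupp.single (k, j) 1 + toF b = toF b' := by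
    simp only [Finsupp.ext_iff, Finsupp.add_apply, toF_apply, flip, Equiv.coe_fn_mk, Fin.val_rev,
      Finsupp.single_apply]
    rw [← (Equiv.prodComm _ _).forall_congr_right]
    refine forall_congr' fun v => ?_
    have := (b v).2
    have := (b' v).2
    simp only [Equiv.prodComm_apply, Prod.swap_swap, Prod.ext_iff, Prod.fst_swap, Prod.snd_swap,
      and_comm (a := j = _)]
    split_ifs <;> omega
  simp only [Lt, Lm, X, Mat_monomial, submatrix_apply, transpose_apply, of_apply,
    Equiv.prodCongr_apply, Prod.map, Equiv.refl_apply, h1]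
  by_cases h2 : Finsupp.single (k, j) 1 + toF b = toF b'
  · have h3 := Lm_lev (K := K) (J := univ) (b', k) (b, j) (by simp [Lm, X, Mat_monomial, h2])
    have h4 := lev_flip b
    have h5 : lev (flip b) = t ↔ lev b' = t' := by simp only at h3; omega
    simp only [h5, ite_and]
    split_ifs <;> rfl
  · simp [h2]

/-- Existence of a diagonal chain. -/
def Ch (J : Finset (Fin n)) (col : ℕ → Fin n) (b : Ly n) (s : ℕ) : Prop :=
  ∃ R : Fin (s + 1) → Fin n, StrictMono R ∧ ∀ c, R c ∈ J ∧ b (col c, R c) ≠ 0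

theorem Lt_mulVec (J Z : Finset (Fin n)) (t : ℕ) (G : Fin n → MvPolynomial (Fin n × Fin n) K)
    (b' : Ly n) (k : Fin n) : (Lt K J Z t *ᵥ fun y => coeff (toF y.1) (G y.2)) (b', k) =
      if k ∈ Z ∧ lev b' = t then coeff (toF b') (∑ j ∈ J, X (k, j) * G j) else 0 := by
  simp only [Lt, Lm, mulVec, dotProduct, of_apply, ite_mul, zero_mul, sum_ite_irrel,
    sum_const_zero]
  congr 1
  rw [Fintype.sum_prod_type_right]
  simp only [sum_ite_irrel, sum_const_zero, Mat_mulVec, sum_ite_mem, univ_inter, coeff_sum]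

theorem chain_ld (J Z : Finset (Fin n)) (col : ℕ → Fin n) (N : ℕ)
    (hN : ∀ b : Ly n, Finsupp.weight (fun v => v.1.val * v.2.val) (toF b) < N)
    (hcol : StrictMonoOn col (Set.Iio Z.card)) (hZ : ∀ k ∈ Z, ∃ s < Z.card, col s = k)
    {b : Ly n} {s : ℕ} (hs : s < Z.card) (hs' : col s ∈ Z) (h : Ch J col b s) :
    ∃ g, Ld (fun x => (Finsupp.weight (fun v => v.1.val * v.2.val) (toF x.1) : ℕ) - N * (x.2.val : ℤ))
      (Lt K J Z (lev b) *ᵥ g) (b, col s) := by
  classical
  obtain ⟨R, hR, h⟩ := h
  have hC : StrictMono fun c : Fin (s + 1) => col c := fun c c' h =>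
    hcol (show c.val < _ by omega) (show c'.val < _ by omega) h
  let A : Matrix (Fin (s + 1)) (Fin (s + 1)) (MvPolynomial (Fin n × Fin n) K) :=
    fun c c' => X (col c', R c)
  let e : Equiv.Perm (Fin (s + 1)) → (Fin n × Fin n →₀ ℕ) := fun π =>
    ∑ c : Fin (s + 1), Finsupp.single (col c, R (π c)) 1
  have h1 : e 1 ≤ toF b := fun v => by
    simp only [e, Finsupp.finsetSum_apply, Finsupp.single_apply, toF_apply]
    by_cases h2 : ∃ c : Fin (s + 1), (col c, R c) = v
    · obtain ⟨c, rfl⟩ := h2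
      have := mt Fin.ext (h c).2
      rw [sum_eq_single c (fun c' _ h => if_neg fun h' => h (hR.injective (Prod.ext_iff.1 h').2))
        (by simp)]
      simp at this ⊢
      omega
    · push Not at h2
      simp [h2]
  let G : Fin n → MvPolynomial (Fin n × Fin n) K := fun j =>
    monomial (toF b - e 1) 1 * ∑ c, if R c = j then A.adjugate (Fin.last s) c else 0
  have h2 : ∀ b' k, (Lt K J Z (lev b) *ᵥ fun y => coeff (toF y.1) (G y.2)) (b', k) =
      if k ∈ Z ∧ lev b' = lev b then coeff (toF b') (monomial (toF b - e 1) 1 *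
        ∑ c, A.adjugate (Fin.last s) c * X (k, R c)) else 0 := fun b' k => by
    rw [Lt_mulVec]
    congr 2
    simp only [G, mul_sum, mul_ite, mul_zero]
    rw [sum_comm]
    refine sum_congr rfl fun c _ => ?_
    rw [sum_ite_eq, if_pos (h c).1]
    ring
  have h3 : ∀ c' : Fin (s + 1), ∑ c, A.adjugate (Fin.last s) c * X (col c', R c) =
      if Fin.last s = c' then A.det else 0 := fun c' => by
    simpa [Matrix.mul_apply, one_apply] using congrFun (congrFun (adjugate_mul A) (Fin.last s)) c'
  have h4 : ∀ m, coeff m (monomial (toF b - e 1) 1 * A.det) =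
      ∑ π, if toF b - e 1 + e π = m then ((Equiv.Perm.sign π : ℤ) : K) else 0 := fun m => by
    rw [det_apply', mul_sum, coeff_sum]
    refine sum_congr rfl fun π _ => ?_
    rw [show (∏ i, A (π i) i) = monomial (e π) 1 from (monomial_sum_one _ _).symm,
      ← map_intCast (C : K →+* _), C_mul_monomial, monomial_mul, coeff_monomial]
    simp
  have h5 : ∀ π ≠ 1, Finsupp.weight (fun v : Fin n × Fin n => v.1.val * v.2.val) (toF b - e 1 + e π) <
      Finsupp.weight (fun v : Fin n × Fin n => v.1.val * v.2.val) (toF b) := fun π hπ => by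
    conv_rhs => rw [← tsub_add_cancel_of_le h1]
    simp only [map_add, add_lt_add_iff_left, e, map_sum, Finsupp.weight_single, one_smul]
    have a1 : StrictMono fun c : Fin (s + 1) => (col c).val := hC
    have a2 : StrictMono fun c => (R c).val := hR
    refine (a1.monotone.monovary a2.monotone).sum_mul_comp_perm_lt_sum_mul_iff.2 fun a3 => hπ ?_
    rw [← inv_eq_one, ← Equiv.Perm.monotone_iff]
    refine monotone_iff_forall_lt.2 fun i j hij => a1.le_iff_le.1 (a3 ?_)
    simpa using hR hij
  have h6 := h3 (Fin.last s)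
  simp only [Fin.val_last, if_true] at h6
  refine ⟨fun y => coeff (toF y.1) (G y.2), ?_, fun ⟨b', k⟩ a1 a2 => ?_⟩
  · rw [h2, if_pos ⟨hs', rfl⟩, h6, h4, sum_eq_single 1]
    · simp [tsub_add_cancel_of_le h1]
    · exact fun π _ hπ => if_neg fun h => (h5 π hπ).ne (by rw [h])
    · simp
  · rw [h2] at a2
    split_ifs at a2 with a3
    swap
    · exact (a2 rfl).elim
    obtain ⟨s', a4, rfl⟩ := hZ k a3.1
    rcases lt_trichotomy s' s with a5 | rfl | a5
    · have := h3 ⟨s', by omega⟩
      rw [if_neg (by simp [Fin.ext_iff]; omega)] at this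
      simp [this] at a2
    · rw [h6, h4] at a2
      obtain ⟨π, -, a6⟩ := exists_ne_zero_of_sum_ne_zero a2
      have a7 : toF b - e 1 + e π = toF b' := by by_contra h; exact a6 (if_neg h)
      have := h5 π (by
        rintro rfl
        rw [tsub_add_cancel_of_le h1] at a7
        exact a1 (by rw [toF_inj a7]))
      rw [a7] at this
      simpa using this
    · have a6 : (col s).val + 1 ≤ col s' := hcol hs a4 a5
      have := hN b'
      simp only
      nlinarith

open Classical in
theorem chain_rank (J Z : Finset (Fin n)) (col : ℕ → Fin n)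
    (hcol : StrictMonoOn col (Set.Iio Z.card)) (hZ : ∀ k ∈ Z, ∃ s < Z.card, col s = k)
    (hZ' : ∀ s < Z.card, col s ∈ Z) (x : Ly n → ℕ) (hx : ∀ b, x b ≤ Z.card)
    (h : ∀ b, ∀ s < x b, Ch J col b s) (t : ℕ) :
    ∑ b with lev b = t, x b ≤ (Lt K J Z t).rank := by
  obtain ⟨N, hN⟩ := (Set.finite_range fun b : Ly n =>
    Finsupp.weight (fun v => v.1.val * v.2.val) (toF b) + 1).bddAbove
  refine le_trans (le_of_eq ?_) (card_le_rank _ (fun x =>
    (Finsupp.weight (fun v => v.1.val * v.2.val) (toF x.1) : ℕ) - N * (x.2.val : ℤ)) (((univ.filter fun b => lev b = t).sigma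
    fun b => range (x b)).image fun q => (q.1, col q.2)) fun y hy => ?_)
  · rw [card_image_of_injOn, card_sigma]
    · simp
    · rintro ⟨b, s⟩ h1 ⟨b', s'⟩ h2 h3
      simp only [coe_sigma, Set.mem_sigma_iff, coe_range, Set.mem_Iio, Prod.mk.injEq] at h1 h2 h3
      obtain ⟨rfl, h3⟩ := h3
      rw [hcol.injOn (h1.2.trans_le (hx _)) (h2.2.trans_le (hx _)) h3]
  · obtain ⟨⟨b, s⟩, h1, rfl⟩ := mem_image.1 hy
    simp only [mem_sigma, mem_filter, mem_univ, true_and, mem_range] at h1
    rw [← h1.1]
    exact chain_ld J Z col N (fun b => hN ⟨b, rfl⟩) hcol hZ (h1.2.trans_le (hx _))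
      (hZ' _ (h1.2.trans_le (hx _))) (h b s h1.2)

end Vale.Agent.P346
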