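import Mathlib

/-! Multiplication matrices on truncated polynomial algebras and a weighted rank measure. -/

namespace Vale.Agent.P346

open Finset MvPolynomial Matrix

set_option linter.unusedSectionVars false

variable {K : Type*} [Field K] {σ : Type} [Fintype σ] [DecidableEq σ]

/-- Exponent vectors with entries at most four. -/
abbrev St (σ : Type) : Type := σ → Fin 5

/-- The exponent vector of a state. -/
noncomputable def toF (a : St σ) : σ →₀ ℕ := Finsupp.equivFunOnFinite.symm fun v => a v

@[simp] theorem toF_apply (a : St σ) (v : σ) : toF a v = a v := rfl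

theorem toF_inj : Function.Injective (toF : St σ → _) := fun _ _ h =>
  _root_.funext fun v => Fin.ext (DFunLike.congr_fun h v)

/-- The matrix of multiplication by `f`. -/
noncomputable def Mat (f : MvPolynomial σ K) : Matrix (St σ) (St σ) K :=
  fun a' a => coeff (toF a') (f * monomial (toF a) 1)

theorem Mat_mulVec (f h : MvPolynomial σ K) (a' : St σ) :
    ∑ a, Mat f a' a * coeff (toF a) h = coeff (toF a') (f * h) := by
  induction h using MvPolynomial.induction_on' with
  | add p q hp hq => simp [mul_add, sum_add_distrib, hp, hq]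
  | monomial m c =>
    by_cases hm : m ≤ toF a'
    · obtain ⟨a, rfl⟩ : ∃ a, toF a = m :=
        ⟨fun v => ⟨m v, (hm v).trans_lt (a' v).2⟩, by ext; rfl⟩
      simp [coeff_monomial, toF_inj.eq_iff, Mat, coeff_mul_monomial', hm]
    · rw [coeff_mul_monomial', if_neg hm]
      refine sum_eq_zero fun a _ => ?_
      rw [coeff_monomial]
      split_ifs with h
      · rw [Mat, coeff_mul_monomial', ← h, if_neg hm, zero_mul]
      · exact mul_zero _

theorem Mat_mul (f g : MvPolynomial σ K) : Mat (f * g) = Mat f * Mat g := by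
  ext a' a
  rw [Matrix.mul_apply, Mat, mul_assoc, ← Mat_mulVec]
  rfl

theorem Mat_add (f g : MvPolynomial σ K) : Mat (f + g) = Mat f + Mat g := by
  ext; simp [Mat, add_mul]

theorem Mat_monomial (m : σ →₀ ℕ) (c : K) (a' a : St σ) :
    Mat (monomial m c) a' a = if m + toF a = toF a' then c else 0 := by
  simp [Mat, coeff_monomial]

theorem Mat_ne {f : MvPolynomial σ K} {a' a : St σ} (h : Mat f a' a ≠ 0) :
    ∃ m ∈ f.support, toF a' = m + toF a := by
  rw [Mat, coeff_mul_monomial'] at h
  split_ifs at h with h1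
  · exact ⟨_, mem_support_iff.2 (by simpa using h), (tsub_add_cancel_of_le h1).symm⟩
  · exact (h rfl).elim

theorem rank_add_le' {m n : Type} [Fintype m] [Fintype n] [DecidableEq n] (A B : Matrix m n K) :
    (A + B).rank ≤ A.rank + B.rank := by
  unfold Matrix.rank
  rw [mulVecLin_add]
  exact (Submodule.finrank_mono (LinearMap.range_add_le _ _)).trans
    (Submodule.finrank_add_le_finrank_add_finrank _ _)

variable (w : σ → ℤ) (h₀ : ℤ) (η : ℝ)

/-- The height of a state. -/
noncomputable def ht (a : St σ) : ℤ := Finsupp.weight w (toF a)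

/-- One graded block of the multiplication matrix. -/
noncomputable def Blk (c : ℤ) (f : MvPolynomial σ K) : Matrix (St σ) (St σ) K :=
  fun a' a => if ht w a = c ∧ ht w a' = c + h₀ then Mat f a' a else 0

/-- The weighted rank. -/
noncomputable def mu (f : MvPolynomial σ K) : ℝ :=
  ∑ c ∈ univ.image (ht w), η ^ c * (Blk w h₀ c f).rank

/-- The total weight. -/
noncomputable def tot : ℝ := ∑ a : St σ, η ^ ht w a

variable {w h₀ η}

theorem mu_zero : mu w h₀ η (0 : MvPolynomial σ K) = 0 := by
  have : ∀ c, Blk w h₀ c (0 : MvPolynomial σ K) = 0 := fun c => by ext; simp [Blk, Mat]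
  simp [mu, this]

theorem mu_add (hη : 0 < η) (f g : MvPolynomial σ K) :
    mu w h₀ η (f + g) ≤ mu w h₀ η f + mu w h₀ η g := by
  rw [mu, mu, mu, ← sum_add_distrib]
  refine sum_le_sum fun c _ => ?_
  have : Blk w h₀ c (f + g) = Blk w h₀ c f + Blk w h₀ c g := by
    ext; simp only [Blk, Mat_add, Matrix.add_apply]; split_ifs <;> simp
  rw [← mul_add, this]
  gcongr
  exact_mod_cast rank_add_le' _ _

theorem mu_sum (hη : 0 < η) {ι : Type*} (s : Finset ι) (f : ι → MvPolynomial σ K) {B : ℝ}
    (h : ∀ i ∈ s, mu w h₀ η (f i) ≤ B) : mu w h₀ η (∑ i ∈ s, f i) ≤ s.card * B := by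
  classical
  induction s using Finset.induction_on with
  | empty => simp [mu_zero]
  | insert i s hi ih =>
    rw [sum_insert hi, card_insert_of_notMem hi]
    have := mu_add (w := w) (h₀ := h₀) hη (f i) (∑ i ∈ s, f i)
    have := h i (mem_insert_self _ _)
    have := ih fun j hj => h j (mem_insert_of_mem hj)
    push_cast; linarith

theorem mu_cut (hη : 1 < η) (p q : MvPolynomial σ K) (c₀ : ℤ)
    (h : (∀ m ∈ p.support, c₀ ≤ Finsupp.weight w m) ∨
      ∀ m ∈ q.support, Finsupp.weight w m ≤ h₀ - c₀) :
    mu w h₀ η (q * p) ≤ (univ.image (ht w)).card * (η ^ (-c₀) * tot w η) := by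
  have h1 : ∀ c, (Blk w h₀ c (q * p)).rank ≤ (univ.filter fun a => c + c₀ ≤ ht w a).card := by
    intro c
    have : Blk w h₀ c (q * p) = (of fun a' a => if ht w a' = c + h₀ then Mat q a' a else 0) *
        diagonal (fun a => if c + c₀ ≤ ht w a then 1 else 0) *
        of fun a' a => if ht w a = c then Mat p a' a else 0 := by
      ext a' a
      simp only [Blk, Mat_mul, Matrix.mul_apply (N := of _), mul_diagonal, of_apply]
      split_ifs with h2 h3 h4 h3 h4 <;> try simp_all; done
      rw [Matrix.mul_apply]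
      refine sum_congr rfl fun b _ => ?_
      split_ifs with h5
      · rw [mul_one]
      · by_contra h6
        rw [mul_zero, zero_mul] at h6
        obtain ⟨m, a1, a2⟩ := Mat_ne (left_ne_zero_of_mul h6)
        obtain ⟨m', a3, a4⟩ := Mat_ne (right_ne_zero_of_mul h6)
        simp only [ht, a2, a4, map_add] at h2 h5
        rcases h with h | h
        · have := h _ a3; omega
        · have := h _ a1; omega
    rw [this]
    refine (rank_mul_le_left _ _).trans ((rank_mul_le_right _ _).trans ?_)
    classical
    rw [rank_diagonal, Fintype.card_subtype]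
    simp
  refine (sum_le_card_nsmul _ _ _ fun c _ => ?_).trans (nsmul_eq_mul _ _).le
  refine (mul_le_mul_of_nonneg_left (Nat.cast_le.2 (h1 c)) (by positivity)).trans ?_
  rw [tot, mul_sum, card_filter, Nat.cast_sum, mul_sum]
  refine sum_le_sum fun a _ => ?_
  split_ifs with h2
  · rw [← zpow_add₀ (by positivity), Nat.cast_one, mul_one]
    exact zpow_le_zpow_right₀ hη.le (by omega)
  · simp only [Nat.cast_zero, mul_zero]; positivity

theorem weight_prod {ι : Type*} (s : Finset ι) (f : ι → MvPolynomial σ K) (t : ℤ)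
    (h : ∀ i ∈ s, ∀ m ∈ (f i).support, t ≤ Finsupp.weight w m) :
    ∀ m ∈ (∏ i ∈ s, f i).support, s.card * t ≤ Finsupp.weight w m := by
  classical
  induction s using Finset.induction_on with
  | empty => intro m hm; simp [support_one] at hm; simp [hm]
  | insert i s hi ih =>
    intro m hm
    rw [prod_insert hi] at hm
    obtain ⟨m1, h1, m2, h2, rfl⟩ := mem_add.1 (support_mul _ _ hm)
    have := h i (mem_insert_self _ _) _ h1
    have := ih (fun j hj => h j (mem_insert_of_mem hj)) _ h2
    rw [card_insert_of_notMem hi, map_add]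
    push_cast; linarith

theorem mu_blocks (hη : 1 < η) {u : ℕ} {t : ℤ} (ht0 : 0 ≤ t) (B : Fin (2 * u) → MvPolynomial σ K)
    (hB : ∀ i, ∀ m ∈ (B i).support, t ≤ |Finsupp.weight w m|) (R : MvPolynomial σ K) :
    mu w h₀ η (R * ∏ i, B i) ≤
      4 ^ u * ((univ.image (ht w)).card * (η ^ (|h₀| - u * t) * tot w η)) := by
  classical
  let P : (( σ →₀ ℕ) → Prop) → Fin (2 * u) → MvPolynomial σ K := fun c i =>
    ∑ m ∈ (B i).support.filter c, monomial m (coeff m (B i))
  have hP : ∀ c i, ∀ m ∈ (P c i).support, m ∈ (B i).support ∧ c m := fun c i m hm => by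
    obtain ⟨m', h1, h2⟩ := mem_biUnion.1 (support_sum hm)
    rw [mem_singleton.1 (support_monomial_subset h2)]
    exact mem_filter.1 h1
  have h1 : ∀ i, B i = P (fun m => 0 ≤ Finsupp.weight w m) i +
      P (fun m => ¬0 ≤ Finsupp.weight w m) i := fun i => by
    conv_lhs => rw [(B i).as_sum]
    simp only [P]
    convert (sum_filter_add_sum_filter_not _ _ _).symm
  rw [prod_congr rfl fun i _ => h1 i, Fintype.prod_add, mul_sum]
  rw [show (4 : ℝ) ^ u = (univ : Finset (Finset (Fin (2 * u)))).card by
    rw [card_univ, Fintype.card_finset, Fintype.card_fin, pow_mul]; norm_num]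
  refine mu_sum (by positivity) _ _ fun S _ => ?_
  rw [← neg_sub]
  have h2 := le_abs_self h₀
  have h3 := neg_abs_le h₀
  rcases le_total u S.card with h4 | h4
  · rw [mul_comm (∏ i ∈ S, _), ← mul_assoc]
    refine mu_cut hη _ _ _ (Or.inl fun m hm => ?_)
    have := weight_prod (w := w) S _ t (fun i _ m hm => by
      obtain ⟨a, b⟩ := hP _ i m hm
      simpa [abs_of_nonneg b] using hB i m a) m hm
    nlinarith
  · rw [← mul_assoc, mul_comm]
    refine mu_cut hη _ _ _ (Or.inr fun m hm => ?_)
    have := weight_prod (w := -w) Sᶜ _ t (fun i _ m hm => by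
      obtain ⟨a, b⟩ := hP _ i m hm
      have := hB i m a
      rw [abs_of_neg (not_le.1 b)] at this
      simpa [Finsupp.weight_apply, Finsupp.sum] using this) m hm
    have h5 : (u : ℤ) ≤ Sᶜ.card := by rw [card_compl, Fintype.card_fin]; omega
    have h6 : Finsupp.weight (-w) m = -Finsupp.weight w m := by
      simp [Finsupp.weight_apply, Finsupp.sum]
    nlinarith

end Vale.Agent.P346
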