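import Vale.Agent.P346.Up

/-! The lower bound on the size. -/

namespace Vale.Agent.P346

open Finset Real

variable {K : Type*} [Field K]

theorem card_ht {σ : Type} [Fintype σ] [DecidableEq σ] {w : σ → ℤ} {T : ℕ} (hw : ∀ v, |w v| ≤ T) :
    (univ.image (ht w)).card ≤ 8 * (Fintype.card σ * T) + 1 := by
  refine (card_le_card (t := Icc (-(4 * (Fintype.card σ * T) : ℕ) : ℤ) (4 * (Fintype.card σ * T) : ℕ))
    fun c hc => ?_).trans (by rw [Int.card_Icc]; omega)
  obtain ⟨a, -, rfl⟩ := mem_image.1 hc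
  rw [mem_Icc, ← abs_le, ht, Finsupp.weight_apply, Finsupp.sum_fintype _ _ (by simp)]
  refine (abs_sum_le_sum_abs _ _).trans ((sum_le_card_nsmul _ _ (4 * T : ℤ) fun v _ => ?_).trans
    (by simp; linarith))
  have := (a v).2
  simp only [toF_apply, nsmul_eq_mul, abs_mul, Nat.abs_cast]
  exact mul_le_mul (by omega) (hw v) (abs_nonneg _) (by norm_num)

theorem size_ge {d : ℕ} (h : exp 2400 ≤ (d + 1 : ℕ)) (Γ : Circuit _ K) (hΓ : Γ.Homog)
    (h1 : Γ.output = IMM K (d + 1) (d + 1)) :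
    ((d + 1 : ℕ) : ℝ) ^ (1 / 768 * √(d + 1 : ℕ)) ≤ Γ.size := by
  obtain ⟨L, hL⟩ : ∃ L : ℝ, ((d + 1 : ℕ) : ℝ) = exp (24 * L) :=
    ⟨log (d + 1 : ℕ) / 24, by rw [mul_div_cancel₀ _ (by norm_num), exp_log (by positivity)]⟩
  have a1 : 100 ≤ L := by rw [hL, exp_le_exp] at h; linarith
  have a2 : √(d + 1 : ℕ) = exp (12 * L) := by
    rw [hL, sqrt_eq_iff_mul_self_eq (by positivity) (by positivity), ← exp_add]; ring_nf
  obtain ⟨t, ht'⟩ : ∃ t, t = (d + 1).sqrt := ⟨_, rfl⟩
  have a3 : 1 ≤ t := by rw [ht', Nat.le_sqrt]; omega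
  have a4 : t * t ≤ d + 1 := ht' ▸ Nat.sqrt_le _
  have a5 : exp (12 * L) ≤ 4 * (t / 4 : ℕ) + 4 := by
    rw [← a2]
    refine (real_sqrt_le_nat_sqrt_succ).trans ?_
    rw [← ht']
    norm_cast
    omega
  have a6 : ∀ k : ℤ, exp (L / t) ^ (k * t) = exp (k * L) := fun k => by
    rw [← rpow_intCast, ← exp_mul]; congr 1; push_cast; field_simp
  have a7 : 1 < exp (L / t) := one_lt_exp_iff.2 (by positivity)
  have a8 := add_one_le_exp (12 * L)
  have a9 : exp (-(12 * L)) * exp (12 * L) = 1 := by rw [← exp_add]; simp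
  have b0 := exp_pos (-(12 * L))
  have b1 : exp (-(12 * L)) ≤ 1 / 6 := by nlinarith
  have b2 := lower (K := K) (n := d + 1) (ε := exp (-(12 * L))) a7 a3 (by
    rw [← zpow_natCast, ← zpow_mul, ← rpow_intCast, ← exp_mul, exp_le_exp]
    have : (1 : ℝ) ≤ t := by exact_mod_cast a3
    push_cast
    rw [div_mul_eq_mul_div, div_le_iff₀ (by positivity)]
    nlinarith) (by linarith) (by
    rw [← neg_mul (9 : ℤ), a6, ← exp_add, ← exp_add]
    refine (pow_le_pow_left₀ (sub_nonneg.2 (exp_le_one_iff.2 (by push_cast; linarith)))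
      (one_sub_le_exp_neg _) _).trans ?_
    rw [← exp_nat_mul, exp_le_exp, hL, mul_neg, ← exp_add]
    have := quadratic_le_exp_of_nonneg (x := 3 * L) (by linarith)
    push_cast
    ring_nf at this ⊢
    nlinarith) d
  have b3 : 0 < tot (wt (d + 1) (es t) (d + 1)) (exp (L / t)) :=
    sum_pos (fun _ _ => by positivity) univ_nonempty
  have b4 : exp (-(6 * exp (12 * L))) ≤ (1 - 3 * exp (-(12 * L))) ^ d := by
    have c1 : exp (-(6 * exp (-(12 * L)))) ≤ 1 - 3 * exp (-(12 * L)) := by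
      rw [exp_neg, inv_le_iff_one_le_mul₀ (exp_pos _)]
      nlinarith [add_one_le_exp (6 * exp (-(12 * L)))]
    refine le_trans ?_ (pow_le_pow_left₀ (exp_pos _).le c1 d)
    rw [← exp_nat_mul, exp_le_exp]
    have : (d : ℝ) ≤ exp (12 * L) * exp (12 * L) := by
      rw [← exp_add, show 12 * L + 12 * L = 24 * L by ring, ← hL]; simp
    nlinarith
  have b5 : F K (d + 1) (d + 1) 0 = Γ.output := h1.symm
  have b6 := mu_circuit (h₀ := Hs t (d + 1)) (u := t / 4) (w := wt (d + 1) (es t) (d + 1)) a7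
    (fun v => by rw [wt, es]; split_ifs <;> simp) a3 (by omega) Γ hΓ a4 (fun h => by
      rw [b5, h, mu_zero] at b2
      have := (exp_pos _).trans_le b4
      exact b2.not_gt (by positivity)) (b5 ▸ F_hom _ _)
  have b7 : ((univ.image (ht (wt (d + 1) (es t) (d + 1)))).card : ℝ) ≤ 41 * exp (96 * L) := by
    have := card_ht (w := wt (d + 1) (es t) (d + 1)) (T := 5 * (d + 1)) fun v => by
      have : t ≤ d + 1 := by nlinarith
      rw [wt, es, abs_le]; split_ifs <;> omega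
    rw [show 96 * L = (4 : ℕ) * (24 * L) by push_cast; ring, exp_nat_mul, ← hL]
    norm_cast
    simp only [Fintype.card_prod, Fintype.card_fin] at this
    nlinarith [Nat.one_le_pow 4 (d + 1) d.succ_pos]
  have b8 : exp (L / t) ^ (|Hs t (d + 1)| - (t / 4 : ℕ) * t) ≤ exp (5 * L - (t / 4 : ℕ) * L) := by
    refine (zpow_le_zpow_right₀ a7.le (show _ ≤ (5 - (t / 4 : ℕ) : ℤ) * t from ?_)).trans_eq ?_
    · have := abs_le.2 ⟨(by omega : -(5 * t : ℤ) ≤ -(4 * t)).trans (Hs_bd a3 (d + 1)).1,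
        (Hs_bd a3 (d + 1)).2⟩
      linarith
    · rw [a6, Int.cast_sub, Int.cast_natCast, sub_mul]; rfl
  have b9 : (4 : ℝ) ^ (t / 4) ≤ exp ((t / 4 : ℕ) * 2) := by
    rw [exp_nat_mul]
    exact pow_le_pow_left₀ (by norm_num)
      (by linarith [quadratic_le_exp_of_nonneg (x := 2) (by norm_num)]) _
  have c0 : 205 ≤ exp L := by nlinarith [quadratic_le_exp_of_nonneg (x := L) (by linarith)]
  rw [b5, ← neg_mul (13 : ℤ), a6] at b2
  generalize ((t / 4 : ℕ) : ℝ) = u at *
  have c1 : exp (-(6 * exp (12 * L))) * exp (-(12 * L)) * exp (-13 * L) ≤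
      Γ.size ^ 2 * (exp (u * 2) * (exp L * exp (96 * L) * exp (5 * L - u * L))) := by
    have := b2.trans b6
    simp only [← mul_assoc] at this
    have := le_of_mul_le_mul_right this b3
    rw [div_le_iff₀ (by norm_num), Int.cast_neg, Int.cast_ofNat] at this
    refine le_trans (by gcongr) (this.trans ?_)
    calc _ ≤ Γ.size ^ 2 * exp (u * 2) * (41 * exp (96 * L)) * exp (5 * L - u * L) * 5 := by gcongr
      _ = Γ.size ^ 2 * (exp (u * 2) * (205 * exp (96 * L) * exp (5 * L - u * L))) := by ring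
      _ ≤ _ := by gcongr
  simp only [← exp_add] at c1
  rw [a2, hL, ← exp_mul]
  rw [← div_le_iff₀ (exp_pos _), ← exp_sub] at c1
  refine (pow_le_pow_iff_left₀ (exp_pos _).le (by positivity) two_ne_zero).1 (le_trans ?_ c1)
  rw [← exp_nat_mul, exp_le_exp]
  generalize exp (12 * L) = s at *
  have c2 := mul_le_mul_of_nonneg_right a5 (show 0 ≤ L - 2 by linarith)
  have c3 := mul_le_mul_of_nonneg_left a1 (show 0 ≤ s by linarith)
  have c4 := mul_le_mul_of_nonneg_right (show 1201 ≤ s by linarith) (show 0 ≤ L by linarith)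
  push_cast
  linarith

end Vale.Agent.P346
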