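import Vale.Agent.P346.DP
import Vale.Agent.P346.Defs

/-! The measure of a homogeneous circuit is small. -/

namespace Vale.Agent.P346

open Finset MvPolynomial

set_option linter.unusedSectionVars false

variable {K : Type*} [Field K] {σ : Type}

theorem group {ι : Type} (f : ι → MvPolynomial σ K) (d : ι → ℕ) {t t' : ℕ} (ht : 0 < t)
    (M : Multiset ι) (h : ∀ i ∈ M, (f i).IsHomogeneous (d i) ∧ d i ≤ t') (k : ℕ)
    (g : MvPolynomial σ K) (c : ℕ) (hg : g.IsHomogeneous c) (hc : c < t)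
    (hk : k * (t + t') ≤ c + (M.map d).sum) : ∃ R, ∃ B : Fin k → MvPolynomial σ K,
      g * (M.map f).prod = R * ∏ i, B i ∧ ∀ i, ∃ e, t ≤ e ∧ e < t + t' ∧ (B i).IsHomogeneous e := by
  induction M using Multiset.induction_on generalizing k g c with
  | empty =>
    obtain rfl : k = 0 := by
      by_contra h1
      have := Nat.mul_le_mul_right (t + t') (Nat.pos_of_ne_zero h1)
      simp at hk
      omega
    exact ⟨_, default, by rw [Fin.prod_univ_zero, mul_one], fun i => i.elim0⟩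
  | cons i M ih =>
    obtain ⟨h1, h2⟩ := h i (Multiset.mem_cons_self _ _)
    have ih := ih fun j hj => h j (Multiset.mem_cons_of_mem hj)
    simp only [Multiset.map_cons, Multiset.prod_cons, Multiset.sum_cons, ← mul_assoc] at hk ⊢
    rcases lt_or_ge (c + d i) t with h3 | h3
    · exact ih k _ _ (hg.mul h1) h3 (by omega)
    rcases k with _ | k
    · exact ⟨_, default, by rw [Fin.prod_univ_zero, mul_one], fun i => i.elim0⟩
    obtain ⟨R, B, h4, h5⟩ := ih k 1 0 (isHomogeneous_one _ _) ht (by rw [add_mul] at hk; omega)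
    refine ⟨R, Fin.cons (g * f i) B, by rw [Fin.prod_cons, ← one_mul (M.map f).prod, h4]; ring, ?_⟩
    exact Fin.forall_fin_succ.2 ⟨⟨_, h3, by omega, hg.mul h1⟩, h5⟩

theorem weight_eq {t : ℤ} {w : σ → ℤ} (hw : ∀ v, w v = 4 * t + 1 ∨ w v = 1 - 4 * t) (m : σ →₀ ℕ) :
    ∃ y : ℤ, Finsupp.weight w m =
      Finsupp.weight (1 : σ → ℕ) m + 4 * t * (2 * y - Finsupp.weight (1 : σ → ℕ) m) := by
  induction m using Finsupp.induction_linear with
  | zero => exact ⟨0, by simp⟩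
  | add f g hf hg =>
    obtain ⟨a, ha⟩ := hf
    obtain ⟨b, hb⟩ := hg
    exact ⟨a + b, by simp only [map_add, ha, hb]; push_cast; ring⟩
  | single v k =>
    rcases hw v with h | h
    · exact ⟨k, by simp [Finsupp.weight_single, h]; ring⟩
    · exact ⟨0, by simp [Finsupp.weight_single, h]; ring⟩

variable [Fintype σ] [DecidableEq σ] {w : σ → ℤ} {h₀ : ℤ} {η : ℝ} {t u : ℕ}

theorem mu_group (hη : 1 < η) (hw : ∀ v, w v = 4 * t + 1 ∨ w v = 1 - 4 * t) {ι : Type}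
    (f : ι → MvPolynomial σ K) (d : ι → ℕ) {s : ℕ} (ht0 : 0 < t) (hs : s = 1 ∨ s = t)
    (M : Multiset ι) (h : ∀ i ∈ M, (f i).IsHomogeneous (d i) ∧ d i ≤ s)
    (hk : 4 * u * s ≤ (M.map d).sum) (R : MvPolynomial σ K) : mu w h₀ η (R * (M.map f).prod) ≤
      4 ^ u * ((univ.image (ht w)).card * (η ^ (|h₀| - u * t) * tot w η)) := by
  obtain ⟨R', B, h1, h2⟩ := group f d (t := s) (by omega) M h (2 * u) 1 0 (isHomogeneous_one _ _)
    (by omega) (by linarith)
  rw [one_mul] at h1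
  rw [h1, ← mul_assoc]
  refine mu_blocks hη (by positivity) B (fun i m hm => ?_) _
  obtain ⟨e, a1, a2, a3⟩ := h2 i
  obtain ⟨y, hy⟩ := weight_eq hw m
  rw [hy, a3 (mem_support_iff.1 hm), le_abs]
  rcases lt_trichotomy (2 * y - e) 0 with h | h | h
  · right; nlinarith [show (e : ℤ) ≤ 2 * t by omega]
  · left; rw [h]; omega
  · left; nlinarith

theorem prod_hom {ι : Type} (f : ι → MvPolynomial σ K) (d : ι → ℕ) (M : Multiset ι)
    (h : ∀ i, (f i).IsHomogeneous (d i)) : (M.map f).prod.IsHomogeneous (M.map d).sum := by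
  induction M using Multiset.induction_on with
  | empty => exact isHomogeneous_one _ _
  | cons i M ih => simpa using (h i).mul ih

theorem eq_sup {ι : Type} {s : Finset ι} {d : ι → ℕ} (h : ∀ i ∈ s, ∀ j ∈ s, d i = d j) {i : ι}
    (hi : i ∈ s) : d i = s.sup d :=
  le_antisymm (le_sup hi) (Finset.sup_le fun j hj => (h j hj i hi).le)

theorem sum_hom {ι : Type} (f : ι → MvPolynomial σ K) (d : ι → ℕ) (s : Finset ι) (c : ι → K)
    (h : ∀ i, (f i).IsHomogeneous (d i)) (h' : ∀ i ∈ s, ∀ j ∈ s, d i = d j) :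
    (∑ i ∈ s, c i • f i).IsHomogeneous (s.sup d) :=
  IsHomogeneous.sum _ _ _ fun i hi => by
    rw [smul_eq_C_mul, ← eq_sup h' hi]; exact (h i).C_mul _

theorem card_le_nc {ι : Type} [Finite ι] (s : Finset ι) : s.card ≤ Nat.card ι := by
  simpa using Set.ncard_le_card (s : Set ι)

theorem mu_circuit (hη : 1 < η) (hw : ∀ v, w v = 4 * t + 1 ∨ w v = 1 - 4 * t) (ht0 : 0 < t)
    (hu : 4 * u ≤ t) (Γ : Circuit σ K) (hΓ : Γ.Homog) {n : ℕ} (hn : t * t ≤ n)
    (h0 : Γ.output ≠ 0) (h1 : Γ.output.IsHomogeneous n) : mu w h₀ η Γ.output ≤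
      Γ.size ^ 2 * (4 ^ u * ((univ.image (ht w)).card * (η ^ (|h₀| - u * t) * tot w η))) := by
  have a0 : ∀ i, (Γ.val₀ i).IsHomogeneous (Γ.deg₀ i) ∧ Γ.deg₀ i ≤ 1 := fun i => by
    rw [Circuit.val₀, Circuit.deg₀]
    rcases Γ.leaf i with v | c
    · exact ⟨isHomogeneous_X _ _, le_rfl⟩
    · exact ⟨isHomogeneous_C _ _, zero_le_one⟩
  have a1 : ∀ i, (Γ.val₁ i).IsHomogeneous (Γ.deg₁ i) := fun i =>
    sum_hom _ _ _ _ (fun i => (a0 i).1) (hΓ.1 i)
  have a2 : ∀ i, (Γ.val₂ i).IsHomogeneous (Γ.deg₂ i) := fun i => prod_hom _ _ _ a1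
  have a3 : ∀ i, (Γ.val₃ i).IsHomogeneous (Γ.deg₃ i) := fun i => sum_hom _ _ _ _ a2 (hΓ.2.1 i)
  have a4 : ∀ i, (Γ.val₄ i).IsHomogeneous (Γ.deg₄ i) := fun i => prod_hom _ _ _ a3
  have a5 := IsHomogeneous.inj_right (sum_hom _ _ _ Γ.co₅ a4 hΓ.2.2) h1 h0
  have a6 : 0 ≤ 4 ^ u * ((univ.image (ht w)).card * (η ^ (|h₀| - u * t) * tot w η)) := by
    have : 0 ≤ tot w η := sum_nonneg fun _ _ => by positivity
    positivity
  have := Γ.fin₂
  have := Γ.fin₄
  rw [sq, mul_assoc]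
  refine (mu_sum (by positivity) _ _ fun i hi => ?_).trans (mul_le_mul_of_nonneg_right
    (Nat.cast_le.2 ((card_le_nc _).trans (by unfold Circuit.size; omega))) (by positivity))
  rw [smul_eq_C_mul]
  by_cases h : ∀ j ∈ Γ.in₄ i, Γ.deg₃ j ≤ t
  · refine (mu_group hη hw _ _ ht0 (Or.inr rfl) _ (fun j hj => ⟨a3 j, h j hj⟩) ?_ _).trans
      (le_mul_of_one_le_left a6 (by exact_mod_cast Nat.le_add_left 1 _))
    exact ((Nat.mul_le_mul_right t hu).trans hn).trans_eq (a5.symm.trans (eq_sup hΓ.2.2 hi).symm)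
  · push Not at h
    obtain ⟨j, hj, h⟩ := h
    obtain ⟨M, hM⟩ := Multiset.exists_cons_of_mem hj
    rw [Circuit.val₄, hM, Multiset.map_cons, Multiset.prod_cons, mul_comm (Γ.val₃ j), ← mul_assoc,
      Circuit.val₃, mul_sum]
    refine (mu_sum (by positivity) _ _ fun k hk => ?_).trans (mul_le_mul_of_nonneg_right
      (Nat.cast_le.2 ((card_le_nc _).trans (by unfold Circuit.size; omega))) a6)
    rw [smul_eq_C_mul, ← mul_assoc]
    refine mu_group hη hw _ _ ht0 (Or.inl rfl) _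
      (fun j _ => ⟨a1 j, Finset.sup_le fun i _ => (a0 i).2⟩) ?_ _
    have : Γ.deg₂ k = Γ.deg₃ j := eq_sup (hΓ.2.1 j) hk
    rw [Circuit.deg₂] at this
    omega

end Vale.Agent.P346
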